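import Vale.Agent.P153.R2.Base.Defs
import Vale.Agent.P153.Bd5.B24

/-!
P153, block PLAN (P9): the vertex sets of a lattice polygon with two arcs. The complement of the
set of the inner vertices is connected, the two arcs are connected; the domain minus sets attached
to the outside has a connected complement.
-/

namespace Vale.Agent.P153.R2.PLAN

open Vale.Agent.P153 Vale.Agent.P153.Topo Relation
open Set

/-! ### General facts on connections -/

theorem conn_univ_right (a b : ℤ) (k : ℕ) : Conn univ (a, b) (a + k, b) := by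
  induction k with
  | zero => simpa using Conn.refl (mem_univ _)
  | succ k ih =>
    refine ih.tail ?_ (mem_univ _)
    rw [adj_iff]
    push_cast
    left
    constructor <;> ring

theorem conn_univ_up (a b : ℤ) (k : ℕ) : Conn univ (a, b) (a, b + k) := by
  induction k with
  | zero => simpa using Conn.refl (mem_univ _)
  | succ k ih =>
    refine ih.tail ?_ (mem_univ _)
    rw [adj_iff]
    push_cast
    right; right; left
    constructor <;> ring

/-- The lattice is connected. -/
theorem conn_univ (x y : Pt) : Conn univ x y := by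
  have h1 : ∀ a a' b : ℤ, Conn univ (a, b) (a', b) := by
    intro a a' b
    rcases le_total a a' with h | h
    · obtain ⟨k, hk⟩ := Int.le.dest h
      rw [← hk]
      exact conn_univ_right a b k
    · obtain ⟨k, hk⟩ := Int.le.dest h
      rw [← hk]
      exact (conn_univ_right a' b k).symm
  have h2 : ∀ a b b' : ℤ, Conn univ (a, b) (a, b') := by
    intro a b b'
    rcases le_total b b' with h | h
    · obtain ⟨k, hk⟩ := Int.le.dest h
      rw [← hk]
      exact conn_univ_up a b k
    · obtain ⟨k, hk⟩ := Int.le.dest h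
      rw [← hk]
      exact (conn_univ_up a b' k).symm
  exact (h1 x.1 y.1 x.2).trans (h2 y.1 x.2 y.2)

/-- If `R` is a nonempty connected set disjoint from `V` and every neighbour of a vertex of `V` is
in `V` or in `R`, then the complement of `V` is connected. -/
theorem CC_of_ring {V R : Set Pt} (hR : Cn R) (hne : R.Nonempty) (hd : Disjoint R V)
    (hV : ∀ v ∈ V, ∀ w, Adj v w → w ∈ V ∨ w ∈ R) : CC V := by
  obtain ⟨r, hr⟩ := hne
  have hRV : R ⊆ Vᶜ := fun x hx hxV => (Set.disjoint_left.1 hd) hx hxV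
  have key : ∀ y, y ∉ V → Conn Vᶜ r y := by
    intro y hy
    have hP : y ∈ V ∨ Conn Vᶜ r y := by
      refine Conn.ind (S := univ) (x := r) (fun y => y ∈ V ∨ Conn Vᶜ r y)
        (Or.inr (Conn.refl (hRV hr))) ?_ (conn_univ r y)
      intro u v _ huv _ hu
      by_cases hv : v ∈ V
      · exact Or.inl hv
      right
      rcases hu with hu | hu
      · rcases hV u hu v huv with h | h
        · exact absurd h hv
        · exact (hR r hr v h).mono hRV
      · exact hu.tail huv hv
    exact hP.resolve_left hy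
  intro x y hx hy
  exact (key x hx).symm.trans (key y hy)

/-- Removing from `V` a set `C` all of whose vertices are joined to the outside inside
`C ∪ Vᶜ`. -/
theorem CC_diff {V C : Set Pt} (hV : CC V) (hC : ∀ x ∈ C, ∃ y, y ∉ V ∧ Conn (C ∪ Vᶜ) x y) :
    CC (V \ C) := by
  have hsub : C ∪ Vᶜ ⊆ (V \ C)ᶜ := by
    rintro x (hx | hx) h
    · exact h.2 hx
    · exact hx h.1
  have key : ∀ x, x ∉ V \ C → ∃ y, y ∉ V ∧ Conn (V \ C)ᶜ x y := by
    intro x hx
    by_cases hxV : x ∈ V
    · have hxC : x ∈ C := by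
        by_contra h
        exact hx ⟨hxV, h⟩
      obtain ⟨y, hy, h⟩ := hC x hxC
      exact ⟨y, hy, h.mono hsub⟩
    · exact ⟨x, hxV, Conn.refl hx⟩
  intro x y hx hy
  obtain ⟨x', hx', h1⟩ := key x hx
  obtain ⟨y', hy', h2⟩ := key y hy
  have h3 : Conn (V \ C)ᶜ x' y' := (hV x' y' hx' hy').mono fun z hz => hsub (Or.inr hz)
  exact (h1.trans h3).trans h2.symm

/-- If the component of `x` in the complement of `S` is finite then it is adjacent to `S`. -/
theorem exists_adj_of_finite {S : Set Pt} {x : Pt} (hx : x ∉ S)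
    (hfin : {y | Conn Sᶜ x y}.Finite) : ∃ u v, Conn Sᶜ x u ∧ Adj u v ∧ v ∈ S := by
  by_contra hcon
  push Not at hcon
  have hall : ∀ y, Conn Sᶜ x y := by
    intro y
    refine Conn.ind (S := univ) (x := x) (fun y => Conn Sᶜ x y) (Conn.refl hx) ?_ (conn_univ x y)
    intro u v _ huv _ hu
    exact hu.tail huv fun hv => hcon u v hu huv hv
  have : {y | Conn Sᶜ x y} = univ := eq_univ_of_forall hall
  rw [this] at hfin
  exact Set.infinite_univ hfin

/-- Every vertex of `fill S` is joined to `S` inside `fill S`. -/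
theorem conn_fill {S : Set Pt} {x : Pt} (hx : x ∈ fill S) : ∃ y ∈ S, Conn (fill S) x y := by
  by_cases hxS : x ∈ S
  · exact ⟨x, hxS, Conn.refl (Or.inl hxS)⟩
  have hfin : {y | Conn Sᶜ x y}.Finite := hx.resolve_left hxS
  obtain ⟨u, v, hu, huv, hv⟩ := exists_adj_of_finite hxS hfin
  have hsub : ∀ y, Conn Sᶜ x y → y ∈ fill S := by
    intro y hy
    refine Or.inr (hfin.subset fun z hz => ?_)
    exact hy.trans hz
  have h1 : Conn (fill S) x u := by
    refine Conn.ind (S := Sᶜ) (x := x) (fun y => Conn (fill S) x y) (Conn.refl hx) ?_ hu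
    intro a b ha hab hb hxa
    exact hxa.tail hab (hsub b (ha.tail hab hb))
  exact ⟨v, hv, h1.tail huv (Or.inl hv)⟩

theorem subset_fill (S : Set Pt) : S ⊆ fill S := fun _ h => Or.inl h

/-- Removing from `V` a set attached to the outside together with its holes. -/
theorem CC_diff_fill {V C : Set Pt} (hV : CC V)
    (hC : ∀ x ∈ C, ∃ y, y ∉ V ∧ Conn (C ∪ Vᶜ) x y) : CC (V \ fill C) := by
  refine CC_diff hV fun x hx => ?_
  obtain ⟨y, hy, h1⟩ := conn_fill hx
  obtain ⟨z, hz, h2⟩ := hC y hy
  exact ⟨z, hz, (h1.mono subset_union_left).trans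
    (h2.mono (union_subset_union_left _ (subset_fill C)))⟩

/-! ### Arcs of a closed path -/

/-- The vertices of the path with the indices `a ≤ i < b`. -/
def parc {n : ℕ} (p : ZMod n → ℤ × ℤ) (a b : ℕ) : Set Pt :=
  {x | ∃ i : ℕ, a ≤ i ∧ i < b ∧ p (i : ZMod n) = x}

section Arc

variable {n : ℕ} {p : ZMod n → ℤ × ℤ}

theorem conn_parc_le (hadj : ∀ i, Adj (p i) (p (i + 1))) {a b i : ℕ} (hi : a ≤ i) (k : ℕ)
    (hk : i + k < b) : Conn (parc p a b) (p (i : ZMod n)) (p ((i + k : ℕ) : ZMod n)) := by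
  induction k with
  | zero => exact Conn.refl ⟨i, hi, hk, rfl⟩
  | succ k ih =>
    refine (ih (by omega)).tail ?_ ⟨i + (k + 1), by omega, hk, rfl⟩
    have := hadj ((i + k : ℕ) : ZMod n)
    have e : (((i + (k + 1) : ℕ)) : ZMod n) = ((i + k : ℕ) : ZMod n) + 1 := by
      push_cast
      ring
    rw [e]
    exact this

/-- The arcs are connected. -/
theorem cn_parc (hadj : ∀ i, Adj (p i) (p (i + 1))) (a b : ℕ) : Cn (parc p a b) := by
  rintro x ⟨i, hi1, hi2, rfl⟩ y ⟨j, hj1, hj2, rfl⟩
  rcases le_total i j with h | h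
  · obtain ⟨k, rfl⟩ := Nat.exists_eq_add_of_le h
    exact conn_parc_le hadj hi1 k hj2
  · obtain ⟨k, rfl⟩ := Nat.exists_eq_add_of_le h
    exact (conn_parc_le hadj hj1 k hi2).symm

theorem parc_nonempty {a b : ℕ} (h : a < b) : (parc p a b).Nonempty := ⟨_, a, le_refl a, h, rfl⟩

theorem parc_finite (a b : ℕ) : (parc p a b).Finite := by
  refine ((Set.finite_Ico a b).image fun i : ℕ => p (i : ZMod n)).subset ?_
  rintro x ⟨i, h1, h2, rfl⟩
  exact ⟨i, ⟨h1, h2⟩, rfl⟩

theorem parc_union {a b c : ℕ} (hab : a ≤ b) (hbc : b ≤ c) :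
    parc p a b ∪ parc p b c = parc p a c := by
  ext x
  constructor
  · rintro (⟨i, h1, h2, h3⟩ | ⟨i, h1, h2, h3⟩)
    · exact ⟨i, h1, by omega, h3⟩
    · exact ⟨i, by omega, h2, h3⟩
  · rintro ⟨i, h1, h2, h3⟩
    rcases lt_or_ge i b with h | h
    · exact Or.inl ⟨i, h1, h, h3⟩
    · exact Or.inr ⟨i, h, h2, h3⟩

theorem mem_parc_iff (hn : 0 < n) (hinj : Function.Injective p) {a b : ℕ} (hb : b ≤ n)
    {i : ZMod n} : p i ∈ parc p a b ↔ a ≤ i.val ∧ i.val < b := by
  have : NeZero n := ⟨hn.ne'⟩
  constructor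
  · rintro ⟨j, h1, h2, h3⟩
    have h4 := hinj h3
    rw [← h4, ZMod.val_natCast_of_lt (by omega)]
    exact ⟨h1, h2⟩
  · rintro ⟨h1, h2⟩
    exact ⟨i.val, h1, h2, by rw [ZMod.natCast_zmod_val]⟩

theorem parc_disjoint (hn : 0 < n) (hinj : Function.Injective p) {a b c d : ℕ} (hbc : b ≤ c)
    (hd : d ≤ n) : Disjoint (parc p a b) (parc p c d) := by
  rw [Set.disjoint_left]
  rintro x ⟨i, h1, h2, rfl⟩ h
  rw [mem_parc_iff hn hinj hd] at h
  rcases lt_or_ge i n with hi | hi
  · rw [ZMod.val_natCast_of_lt hi] at h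
    omega
  · omega

theorem range_eq_parc (hn : 0 < n) : range p = parc p 0 n := by
  have : NeZero n := ⟨hn.ne'⟩
  ext x
  constructor
  · rintro ⟨i, rfl⟩
    exact ⟨i.val, Nat.zero_le _, ZMod.val_lt i, by rw [ZMod.natCast_zmod_val]⟩
  · rintro ⟨i, -, -, rfl⟩
    exact ⟨_, rfl⟩

end Arc

/-! ### Polygons -/

/-- Vertex sets of a domain with two arcs: free vertices `F`, `P` (plus) and `M` (minus). -/
structure Arcs (F P M : Set Pt) : Prop where
  finF : F.Finite
  finP : P.Finite
  finM : M.Finite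
  dFP : Disjoint F P
  dFM : Disjoint F M
  dPM : Disjoint P M
  nb : ∀ v ∈ F, ∀ w, Adj v w → w ∈ F ∨ w ∈ P ∨ w ∈ M
  cc : CC F
  cP : Cn P
  cM : Cn M
  neP : P.Nonempty
  neM : M.Nonempty
  cPM : Cn (P ∪ M)

section Poly

open Vale.Agent.P153.F.Dom (IsPolygon Encloses verts dl_inner dl_nbr dl_poly)

variable {n : ℕ} {p : ZMod n → ℤ × ℤ} {S : Finset ((ℤ × ℤ) × Bool)}

theorem nbr_inner (hS : Encloses p S) {v w : ℤ × ℤ} (hv : v ∈ F.Dom.inner p S) (hw : Adj v w) :
    w ∈ F.Dom.inner p S ∨ w ∈ range p := by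
  by_cases h : w ∈ range p
  · exact Or.inr h
  · refine Or.inl (dl_inner.2 ⟨dl_nbr hS hv hw, fun i hi => h ⟨i, hi⟩⟩)

/-- The arcs data of a polygon. -/
theorem arcs_poly (hp : IsPolygon p) (hS : Encloses p S) {k : ℕ} (hk : 0 < k) (hkn : k < n) :
    Arcs (F.Dom.inner p S : Set Pt) (parc p 0 k) (parc p k n) := by
  obtain ⟨hn, hinj, hadj⟩ := hp
  have hn0 : 0 < n := by omega
  have hadj' : ∀ i, Adj (p i) (p (i + 1)) := hadj
  have hdis : Disjoint (F.Dom.inner p S : Set Pt) (range p) := by
    rw [Set.disjoint_left]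
    rintro x hx ⟨i, hi⟩
    exact (dl_inner.1 (Finset.mem_coe.1 hx)).2 i hi
  have hu : parc p 0 k ∪ parc p k n = range p := by
    rw [parc_union (Nat.zero_le k) hkn.le, range_eq_parc hn0]
  have h1 : parc p 0 k ⊆ range p := by rw [← hu]; exact subset_union_left
  have h2 : parc p k n ⊆ range p := by rw [← hu]; exact subset_union_right
  have hc : Cn (range p) := by rw [range_eq_parc hn0]; exact cn_parc hadj' 0 n
  exact
    { finF := Finset.finite_toSet _
      finP := parc_finite _ _
      finM := parc_finite _ _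
      dFP := hdis.mono_right h1
      dFM := hdis.mono_right h2
      dPM := parc_disjoint hn0 hinj le_rfl le_rfl
      nb := fun v hv w hw => by
        rcases nbr_inner hS (Finset.mem_coe.1 hv) hw with h | h
        · exact Or.inl h
        · rw [← hu] at h
          exact Or.inr h
      cc := CC_of_ring hc ⟨p 0, mem_range_self 0⟩ hdis.symm fun v hv w hw => by
        rcases nbr_inner hS (Finset.mem_coe.1 hv) hw with h | h
        · exact Or.inl h
        · exact Or.inr h
      cP := cn_parc hadj' 0 k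
      cM := cn_parc hadj' k n
      neP := parc_nonempty hk
      neM := parc_nonempty hkn
      cPM := by rw [hu]; exact hc }

/-- The complement of the set of the inner vertices of a polygon is connected. -/
theorem CC_inner (hp : IsPolygon p) (hS : Encloses p S) : CC (F.Dom.inner p S : Set Pt) :=
  (arcs_poly hp hS (k := 1) one_pos (by have := hp.1; omega)).cc

end Poly

/-! ### Exploration -/

/-- Moving a free vertex which is adjacent to `P` into `P`. -/
theorem Arcs.addP {F P M : Set Pt} (h : Arcs F P M) {x : Pt} (hx : x ∈ F)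
    (hxP : ∃ y ∈ P, Adj x y) : Arcs (F \ {x}) (insert x P) M := by
  obtain ⟨y, hy, hxy⟩ := hxP
  have hyF : y ∉ F := fun h' => (Set.disjoint_left.1 h.dFP) h' hy
  have hcPM : Cn (insert x P ∪ M) := by
    have hz : ∀ z ∈ P ∪ M, Conn (insert x P ∪ M) y z := fun z hz =>
      (h.cPM y (Or.inl hy) z hz).mono (union_subset_union_left _ (subset_insert x P))
    have hz' : ∀ z ∈ insert x P ∪ M, Conn (insert x P ∪ M) y z := by
      rintro z ((rfl | hzP) | hzM)
      · exact Conn.of_adj (Or.inl (Or.inr hy)) (Or.inl (Or.inl rfl)) (adj_symm hxy)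
      · exact hz z (Or.inl hzP)
      · exact hz z (Or.inr hzM)
    exact fun a ha b hb => (hz' a ha).symm.trans (hz' b hb)
  have hcP : Cn (insert x P) := by
    have hz' : ∀ z ∈ insert x P, Conn (insert x P) y z := by
      rintro z (rfl | hzP)
      · exact Conn.of_adj (Or.inr hy) (Or.inl rfl) (adj_symm hxy)
      · exact (h.cP y hy z hzP).mono (subset_insert x P)
    exact fun a ha b hb => (hz' a ha).symm.trans (hz' b hb)
  exact
    { finF := h.finF.subset sdiff_subset
      finP := h.finP.insert x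
      finM := h.finM
      dFP := by
        rw [Set.disjoint_left]
        rintro z ⟨hz1, hz2⟩ (hz3 | hz3)
        · exact hz2 hz3
        · exact (Set.disjoint_left.1 h.dFP) hz1 hz3
      dFM := h.dFM.mono_left sdiff_subset
      dPM := by
        rw [Set.disjoint_left]
        rintro z (rfl | hz) hzM
        · exact (Set.disjoint_left.1 h.dFM) hx hzM
        · exact (Set.disjoint_left.1 h.dPM) hz hzM
      nb := fun v hv w hw => by
        by_cases hwx : w = x
        · exact Or.inr (Or.inl (Or.inl hwx))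
        · rcases h.nb v hv.1 w hw with h' | h' | h'
          · exact Or.inl ⟨h', hwx⟩
          · exact Or.inr (Or.inl (Or.inr h'))
          · exact Or.inr (Or.inr h')
      cc := CC_diff h.cc fun z hz => ⟨y, hyF, by
        rw [mem_singleton_iff.1 hz]
        exact Conn.of_adj (Or.inl rfl) (Or.inr hyF) hxy⟩
      cP := hcP
      cM := h.cM
      neP := ⟨x, Or.inl rfl⟩
      neM := h.neM
      cPM := hcPM }

theorem Arcs.symm {F P M : Set Pt} (h : Arcs F P M) : Arcs F M P :=
  { finF := h.finF, finP := h.finM, finM := h.finP, dFP := h.dFM, dFM := h.dFP,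
    dPM := h.dPM.symm
    nb := fun v hv w hw => by
      rcases h.nb v hv w hw with h' | h' | h'
      · exact Or.inl h'
      · exact Or.inr (Or.inr h')
      · exact Or.inr (Or.inl h')
    cc := h.cc, cP := h.cM, cM := h.cP, neP := h.neM, neM := h.neP
    cPM := by rw [union_comm]; exact h.cPM }

/-- Moving a free vertex which is adjacent to `M` into `M`. -/
theorem Arcs.addM {F P M : Set Pt} (h : Arcs F P M) {x : Pt} (hx : x ∈ F)
    (hxM : ∃ y ∈ M, Adj x y) : Arcs (F \ {x}) P (insert x M) :=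
  (h.symm.addP hx hxM).symm

end Vale.Agent.P153.R2.PLAN
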