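import Vale.Agent.P153.R2.PLAN.Switch

/-!
P153-R2: the mean trick. `K` is the cluster of `Z` in `{h ≤ a}`, the heights on the walls are at
most `a + 2`. Then the mean height at `v` is at most `a + 2 P(A)`, where `A` is the event that `v`
is joined to the walls off `K`.
-/

namespace Vale.Agent.P153.R2.PLAN

open Set Relation
open Vale.Agent.P153 Vale.Agent.P153.Topo

variable {V W Z : Set Pt} {I J : Pt → Set ℤ} {a c : ℤ} {v : Pt}

theorem Dat.agree (hd : Dat V I) (hW : W ⊆ V) (h : Hg) [DecidablePred (· ∈ W)] :
    Dat W (fun x => if x ∈ W then I x else {h x}) := by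
  refine ⟨hd.fin.subset hW, fun x hx => ?_, hd.cof.subset fun x hx => ?_⟩
  · rw [if_neg hx]
    exact Set.finite_singleton _
  · rw [mem_ofPred_eq] at hx ⊢
    intro h1
    apply hx
    split_ifs
    · exact h1
    · exact Set.subsingleton_singleton

/-- Exact symmetry: upper bound for the mean. -/
theorem mean_le (hc : Odd c) (hd : Dat V I) (hne : (Cfg V I).Nonempty)
    (hin : ∀ x ∈ V, I x = univ ∨ ∀ b ∈ I x, b ≤ c) (hout : ∀ x ∈ ebd V, ∀ b ∈ I x, b ≤ c)
    (hv : v ∈ V) : Ex (Cfg V I) (fun h => (h v : ℝ)) ≤ c := by
  classical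
  set J : Pt → Set ℤ := fun x => if x ∈ V then (if I x = univ then univ else {c}) else
    if x ∈ ebd V then {c} else I x with hJ
  have hJd : Dat V J := by
    refine ⟨hd.fin, fun x hx => ?_, hd.cof.subset fun x hx => ?_⟩
    · simp only [hJ]
      rw [if_neg hx]
      split_ifs
      · exact Set.finite_singleton _
      · exact hd.bdd x hx
    · rw [mem_ofPred_eq] at hx ⊢
      intro h1
      apply hx
      simp only [hJ]
      split_ifs with h2 h3 h4
      · rw [← h3]; exact h1
      · exact Set.subsingleton_singleton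
      · exact Set.subsingleton_singleton
      · exact h1
  obtain ⟨h₀, hh₀⟩ := hne
  have hJne : (Cfg V J).Nonempty := by
    refine ⟨fun x => if x ∈ V ∨ x ∈ ebd V then c else h₀ x, fun x => ?_, fun x => ?_,
      fun x hx y hxy => ?_⟩
    · dsimp only
      split_ifs
      · exact hc
      · exact hh₀.1 x
    · simp only [hJ]
      by_cases h1 : x ∈ V
      · rw [if_pos (Or.inl h1), if_pos h1]
        split_ifs
        · exact mem_univ _
        · exact mem_singleton _
      · by_cases h2 : x ∈ ebd V
        · rw [if_pos (Or.inr h2), if_neg h1, if_pos h2]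
          exact mem_singleton _
        · rw [if_neg (show ¬ (x ∈ V ∨ x ∈ ebd V) from by tauto), if_neg h1, if_neg h2]
          exact hh₀.2.1 x
    · dsimp only
      have hy : y ∈ V ∨ y ∈ ebd V := by
        by_cases h : y ∈ V
        · exact Or.inl h
        · exact Or.inr ⟨h, x, hx, hxy⟩
      rw [if_pos (Or.inl hx), if_pos hy, sub_self, abs_zero]
      norm_num
  have hle : Ex (Cfg V I) (fun h => (h v : ℝ)) ≤ Ex (Cfg V J) (fun h => (h v : ℝ)) := by
    refine Cfg_le hd hJd ⟨h₀, hh₀⟩ hJne (fun x => ?_) _ fun g h hgh => ?_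
    · simp only [hJ]
      have key : (∀ b ∈ I x, b ≤ c) → SLe (I x) {c} := by
        intro h b hb d hd
        rw [mem_singleton_iff] at hd
        subst hd
        rw [min_eq_left (h b hb), max_eq_right (h b hb)]
        exact ⟨hb, rfl⟩
      split_ifs with h1 h2 h3
      · rw [h2]; exact SLe.refl _
      · exact key ((hin x h1).resolve_left h2)
      · exact key (hout x h3)
      · exact SLe.refl _
    · exact_mod_cast hgh v
  refine hle.trans (le_of_eq ?_)
  -- reflection about `c`
  have hJV : ∀ g ∈ Cfg V J, ∀ x ∈ V, ∀ y, y ∉ V → Adj x y → g y = c := by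
    intro g hg x hx y hy hxy
    have h1 := hg.2.1 y
    simp only [hJ] at h1
    rw [if_neg hy, if_pos ⟨hy, x, hx, hxy⟩] at h1
    exact h1
  have hR : ∀ g ∈ Cfg V J, refl c V g ∈ Cfg V J := by
    intro g hg
    refine ⟨fun x => ?_, fun x => ?_, fun x hx y hxy => ?_⟩
    · unfold refl
      split_ifs
      · have := hg.1 x
        rw [Int.odd_iff] at this ⊢
        omega
      · exact hg.1 x
    · have h1 := hg.2.1 x
      simp only [hJ] at h1 ⊢
      unfold refl
      by_cases hx : x ∈ V
      · rw [if_pos hx] at h1 ⊢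
        rw [if_pos hx]
        split_ifs with h2
        · exact mem_univ _
        · rw [if_neg h2, mem_singleton_iff] at h1
          rw [h1, mem_singleton_iff]
          ring
      · rw [if_neg hx] at h1 ⊢
        rw [if_neg hx]
        exact h1
    · have h1 := hg.2.2 x hx y hxy
      unfold refl
      rw [if_pos hx]
      split_ifs with hy
      · have e : 2 * c - g x - (2 * c - g y) = -(g x - g y) := by ring
        rw [e, abs_neg]
        exact h1
      · have h2 := hJV g hg x hx y hy hxy
        rw [h2] at h1 ⊢
        have e : 2 * c - g x - c = -(g x - c) := by ring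
        rw [e, abs_neg]
        exact h1
  have hRR : ∀ g : Hg, refl c V (refl c V g) = g := by
    intro g
    funext x
    unfold refl
    split_ifs
    · ring
    · rfl
  have hbij : BijOn (refl c V) (Cfg V J) (Cfg V J) :=
    ⟨hR, fun g _ h _ hgh => by rw [← hRR g, hgh, hRR], fun g hg => ⟨refl c V g, hR g hg, hRR g⟩⟩
  have e1 := Ex_bij (refl c V) hbij (fun h => (h v : ℝ))
  have e2 : Ex (Cfg V J) (fun h => ((refl c V h v : ℤ) : ℝ)) =
      Ex (Cfg V J) (fun h => (2 * c : ℝ) - (h v : ℝ)) := by
    refine Ex_congr fun g _ => ?_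
    unfold refl
    rw [if_pos hv]
    push_cast
    ring
  rw [e2, Ex_sub, Ex_const (Cfg_finite hJd) hJne] at e1
  linarith

/-- The same, conditionally on the heights off `W`. -/
theorem mean_le' (hc : Odd c) (hd : Dat V I) (hne : (Cfg V I).Nonempty) (hW : W ⊆ V)
    (hin : ∀ x ∈ W, I x = univ ∨ ∀ b ∈ I x, b ≤ c)
    (hout : ∀ x ∈ ebd W, ∀ g ∈ Cfg V I, g x ≤ c)
    (hv : v ∈ W ∨ ∀ g ∈ Cfg V I, g v ≤ c) : Ex (Cfg V I) (fun h => (h v : ℝ)) ≤ c := by
  classical
  have hf := Cfg_finite hd
  rcases hv with hv | hv
  · rw [← Ex_const hf hne (c : ℝ)]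
    refine Ex_le_of_fiber hf (fun g : Hg => fun x => if x ∈ W then 0 else g x) _ _
      (fun _ _ _ _ _ => rfl) fun h hh => ?_
    have e : Cfg V I ∩ {b | (fun x => if x ∈ W then 0 else b x) =
        fun x => if x ∈ W then 0 else h x} = Cfg V I ∩ {g | ∀ x, x ∉ W → g x = h x} := by
      ext g
      refine and_congr_right fun _ => ?_
      rw [mem_ofPred_eq, mem_ofPred_eq, funext_iff]
      refine forall_congr' fun x => ?_
      by_cases hx : x ∈ W
      · simp [hx]
      · simp [hx]
    rw [e, Cfg_agree hh hW]
    refine mean_le hc (Dat.agree hd hW h) ?_ ?_ ?_ hv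
    · rw [← Cfg_agree hh hW]
      exact ⟨h, hh, fun _ _ => rfl⟩
    · intro x hx
      rw [if_pos hx]
      exact hin x hx
    · intro x hx b hb
      rw [if_neg hx.1, mem_singleton_iff] at hb
      rw [hb]
      exact hout x hx h hh
  · rw [← Ex_const hf hne (c : ℝ)]
    exact Ex_mono fun g hg => by exact_mod_cast hv g hg

/-- Conditioning on a decreasing event lowers the means of increasing functions. -/
theorem Ex_inter_le (hd : Dat V I) (hne : (Cfg V I).Nonempty) {C : Set Hg} (hC : IsLowerSet C)
    (hne' : (Cfg V I ∩ C).Nonempty) (F : Hg → ℝ) (hF : Monotone F) :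
    Ex (Cfg V I ∩ C) F ≤ Ex (Cfg V I) F := by
  classical
  have hf := Cfg_finite hd
  have hmono : Monotone (fun g : Hg => - ind C g) := by
    intro g h hgh
    simp only [ind]
    split_ifs with h1 h2
    · exact le_rfl
    · norm_num
    · exact absurd (hC hgh (by assumption)) h1
    · exact le_rfl
  have h1 := Cfg_fkg hd hne F _ hF hmono
  rw [Ex_neg] at h1
  have h2 : Ex (Cfg V I) (fun h => F h * - ind C h) = - Ex (Cfg V I) (fun h => ind C h * F h) := by
    rw [← Ex_neg]
    exact Ex_congr fun h _ => by ring
  rw [h2, ← Ex_inter_mul hf C F, ← Pr_eq_Ex hf] at h1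
  have hpos : 0 < Pr (Cfg V I) C := by
    unfold Pr
    have e1 : 0 < (Cfg V I ∩ C).ncard := (Set.ncard_pos (hf.inter_of_left C)).2 hne'
    have e2 : 0 < (Cfg V I).ncard := (Set.ncard_pos hf).2 hne
    positivity
  nlinarith

theorem Dat.of_sub (hV : V.Finite) (h : ∀ x, x ∉ V → (J x).Subsingleton) : Dat V J :=
  ⟨hV, fun x hx => (h x hx).finite, hV.subset fun x hx => by
    by_contra h1
    exact hx (h x h1)⟩

theorem Kd_eq {h g : Hg} (hZ : ∀ x ∈ Z, x ∈ Kd V Z a h) (h1 : ∀ x ∈ Kd V Z a h, g x = h x)
    (h2 : ∀ x ∈ V, x ∉ Kd V Z a h → ∀ y ∈ Kd V Z a h, Adj y x → a < g x) :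
    Kd V Z a g = Kd V Z a h := by
  apply Subset.antisymm
  · rintro y ⟨x, hx, hxy⟩
    refine Conn.ind (S := V ∩ dn g a) (fun y => y ∈ Kd V Z a h) (hZ x hx)
      (fun u w _ huw hw ih => ?_) hxy
    by_contra h3
    have h4 := h2 w hw.1 h3 u ih huw
    have h5 : g w ≤ a := hw.2
    omega
  · rintro y ⟨x, hx, hxy⟩
    have h4 : Kd V Z a h ⊆ V ∩ dn g a := by
      intro z hz
      have h3 : h z ≤ a := (Cl_subset hz).2
      rw [← h1 z hz] at h3
      exact ⟨Kd_subset hz, h3⟩
    exact ⟨x, hx, (conn_Cl hx hxy).mono h4⟩

theorem not_mem_Kd {h : Hg} {x y : Pt} (hy : y ∈ Kd V Z a h) (hyx : Adj y x) (hx : x ∈ V)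
    (h' : x ∉ Kd V Z a h) : a < h x := by
  by_contra h1
  push Not at h1
  obtain ⟨z, hz, hzy⟩ := hy
  exact h' ⟨z, hz, hzy.tail hyx ⟨hx, h1⟩⟩

/-- The part of `V` which is joined to the walls off the cluster. -/
def Uo (V Z : Set Pt) (a : ℤ) (h : Hg) : Set Pt := {x | x ∈ V ∧ ∃ y, y ∉ V ∧ Conn (Kd V Z a h)ᶜ x y}

/-- **The mean trick.** -/
theorem mean_trick (ha : Odd a) (hd : Dat V I) (hne : (Cfg V I).Nonempty) (hZV : Z ⊆ V)
    (hZ : ∀ x ∈ Z, ∀ b ∈ I x, b ≤ a) (hI : ∀ x ∈ V, x ∉ Z → I x = univ)
    (hw : ∀ x ∈ ebd V, ∀ b ∈ I x, b ≤ a + 2) (hv : v ∈ V) :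
    Ex (Cfg V I) (fun h => (h v : ℝ)) ≤
      a + 2 * Pr (Cfg V I) {h | ∃ y, y ∉ V ∧ Conn (Kd V Z a h)ᶜ v y} := by
  classical
  have hf := Cfg_finite hd
  set A : Set Hg := {h | ∃ y, y ∉ V ∧ Conn (Kd V Z a h)ᶜ v y} with hA
  have hZK : ∀ h ∈ Cfg V I, ∀ x ∈ Z, x ∈ Kd V Z a h := fun h hh x hx =>
    ⟨x, hx, Conn.refl (S := V ∩ dn h a) ⟨hZV hx, hZ x hx _ (hh.2.1 x)⟩⟩
  -- first part
  have p1 : Ex (Cfg V I) (fun h => ind A h * ((h v : ℝ) - a)) ≤
      Ex (Cfg V I) (fun h => 2 * ind A h) := by
    refine Ex_le_of_fiber hf (fun h : Hg => (Kd V Z a h,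
      fun x => if x ∈ Kd V Z a h ∨ x ∉ V then h x else 0)) _ _ ?_ ?_
    · intro h _ g _ hhg
      rw [Prod.mk.injEq] at hhg
      simp only [ind, hA, mem_ofPred_eq, hhg.1]
    · intro h hh
      set S := Cfg V I ∩ {g : Hg | ((Kd V Z a g, fun x => if x ∈ Kd V Z a g ∨ x ∉ V then g x else 0) :
        Set Pt × Hg) = (Kd V Z a h, fun x => if x ∈ Kd V Z a h ∨ x ∉ V then h x else 0)} with hS
      have hSf : S.Finite := hf.inter_of_left _
      have hSK : ∀ g ∈ S, Kd V Z a g = Kd V Z a h ∧ ∀ x, x ∈ Kd V Z a h ∨ x ∉ V → g x = h x := by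
        rintro g ⟨_, hg⟩
        rw [mem_ofPred_eq, Prod.mk.injEq] at hg
        refine ⟨hg.1, fun x hx => ?_⟩
        have := congrFun hg.2 x
        rw [hg.1, if_pos hx, if_pos hx] at this
        exact this
      have hhS : h ∈ S := ⟨hh, rfl⟩
      by_cases hhA : h ∈ A
      · have e1 : Ex S (fun g => ind A g * ((g v : ℝ) - a)) = Ex S (fun g => (g v : ℝ)) - a := by
          have e0 := Ex_sub (S := S) (fun g => (g v : ℝ)) (fun _ => (a : ℝ))
          rw [Ex_const hSf ⟨h, hhS⟩] at e0
          rw [← e0]
          refine Ex_congr fun g hg => ?_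
          have : g ∈ A := by
            rw [hA, mem_ofPred_eq] at hhA ⊢
            rw [(hSK g hg).1]
            exact hhA
          simp [ind, this]
        have e2 : Ex S (fun g => (g v : ℝ)) ≤ ((a + 2 : ℤ) : ℝ) := by
          set J : Pt → Set ℤ := fun x => if x ∈ Kd V Z a h ∨ x ∉ V then {h x} else
            if ∃ y ∈ Kd V Z a h, Adj y x then {a + 2} else univ with hJ
          have hSJ : S = Cfg V J := by
            ext g
            constructor
            · intro hg
              refine ⟨hg.1.1, fun x => ?_, hg.1.2.2⟩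
              simp only [hJ]
              split_ifs with h1 h2
              · exact (hSK g hg).2 x h1
              · push Not at h1
                obtain ⟨y, hy, hyx⟩ := h2
                have hy' := hy
                rw [← (hSK g hg).1] at hy'
                have h1' := h1.1
                rw [← (hSK g hg).1] at h1'
                have h3 := not_mem_Kd hy' hyx h1.2 h1'
                have h4 := hg.1.2.2 y (Kd_subset hy) x hyx
                have h5 : g y ≤ a := (Cl_subset hy').2
                have h6 := hg.1.1 x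
                rw [abs_le] at h4
                rw [mem_singleton_iff]
                rw [Int.odd_iff] at h6 ha
                omega
              · exact mem_univ _
            · intro hg
              have g1 : ∀ x, x ∈ Kd V Z a h ∨ x ∉ V → g x = h x := fun x hx => by
                have := hg.2.1 x
                simp only [hJ] at this
                rw [if_pos hx] at this
                exact this
              have g2 : Kd V Z a g = Kd V Z a h := by
                refine Kd_eq (hZK h hh) (fun x hx => g1 x (Or.inl hx)) fun x hx hxK y hy hyx => ?_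
                have := hg.2.1 x
                simp only [hJ] at this
                rw [if_neg (by tauto), if_pos ⟨y, hy, hyx⟩, mem_singleton_iff] at this
                omega
              refine ⟨⟨hg.1, fun x => ?_, hg.2.2⟩, ?_⟩
              · by_cases hx : x ∈ Kd V Z a h ∨ x ∉ V
                · rw [g1 x hx]
                  exact hh.2.1 x
                · push Not at hx
                  rw [hI x hx.2 fun hxZ => hx.1 (hZK h hh x hxZ)]
                  exact mem_univ _
              · rw [mem_ofPred_eq, Prod.mk.injEq]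
                refine ⟨g2, ?_⟩
                funext x
                rw [g2]
                split_ifs with hx
                · exact g1 x hx
                · rfl
          have hJd : Dat V J := by
            refine Dat.of_sub hd.fin fun x hx => ?_
            simp only [hJ]
            rw [if_pos (Or.inr hx)]
            exact Set.subsingleton_singleton
          rw [hSJ]
          refine mean_le' (W := {x | x ∈ V ∧ x ∉ Kd V Z a h ∧ ¬ ∃ y ∈ Kd V Z a h, Adj y x})
            (ha.add_even even_two) hJd ⟨h, hSJ ▸ hhS⟩ (fun x hx => hx.1) ?_ ?_ ?_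
          · rintro x ⟨hx1, hx2, hx3⟩
            left
            simp only [hJ]
            rw [if_neg (by tauto), if_neg hx3]
          · rintro x ⟨hx, z, hz, hzx⟩ g hg
            rw [← hSJ] at hg
            by_cases hxV : x ∈ V
            · by_cases hxK : x ∈ Kd V Z a h
              · have : h x ≤ a := (Cl_subset hxK).2
                rw [(hSK g hg).2 x (Or.inl hxK)]
                omega
              · have h1 : ∃ y ∈ Kd V Z a h, Adj y x := by
                  by_contra h2
                  exact hx ⟨hxV, hxK, h2⟩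
                obtain ⟨y, hy, hyx⟩ := h1
                rw [← (hSK g hg).1] at hy
                have h5 : g y ≤ a := (Cl_subset hy).2
                have h4 := hg.1.2.2 y (Kd_subset hy) x hyx
                rw [abs_le] at h4
                omega
            · exact hw x ⟨hxV, z, hz.1, hzx⟩ _ (hg.1.2.1 x)
          · by_cases h1 : ∃ y ∈ Kd V Z a h, Adj y v
            · right
              intro g hg
              rw [← hSJ] at hg
              obtain ⟨y, hy, hyx⟩ := h1
              rw [← (hSK g hg).1] at hy
              have h5 : g y ≤ a := (Cl_subset hy).2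
              have h4 := hg.1.2.2 y (Kd_subset hy) v hyx
              rw [abs_le] at h4
              omega
            · by_cases h2 : v ∈ Kd V Z a h
              · right
                intro g hg
                rw [← hSJ] at hg
                rw [← (hSK g hg).1] at h2
                have h5 : g v ≤ a := (Cl_subset h2).2
                omega
              · exact Or.inl ⟨hv, h2, h1⟩
        rw [e1]
        have e3 : ind A h = 1 := by simp [ind, hhA]
        rw [e3]
        push_cast at e2
        linarith
      · have e1 : Ex S (fun g => ind A g * ((g v : ℝ) - a)) = Ex S (fun _ => 0) := by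
          refine Ex_congr fun g hg => ?_
          have : g ∉ A := by
            rw [hA, mem_ofPred_eq] at hhA ⊢
            rw [(hSK g hg).1]
            exact hhA
          simp [ind, this]
        rw [e1, Ex_zero]
        simp [ind, hhA]
  -- second part
  have p2 : Ex (Cfg V I) (fun h => ind Aᶜ h * ((h v : ℝ) - a)) ≤ Ex (Cfg V I) (fun _ => 0) := by
    have hAU : ∀ h : Hg, h ∈ A ↔ v ∈ Uo V Z a h := fun h => ⟨fun h1 => ⟨hv, h1⟩, fun h1 => h1.2⟩
    refine Ex_le_of_fiber hf (fun h : Hg => (Uo V Z a h,
      fun x => if x ∈ Uo V Z a h ∨ x ∉ V then h x else 0)) _ _ (fun _ _ _ _ _ => rfl) ?_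
    intro h hh
    set S := Cfg V I ∩ {g : Hg | ((Uo V Z a g, fun x => if x ∈ Uo V Z a g ∨ x ∉ V then g x else 0) :
      Set Pt × Hg) = (Uo V Z a h, fun x => if x ∈ Uo V Z a h ∨ x ∉ V then h x else 0)} with hS
    have hSf : S.Finite := hf.inter_of_left _
    have hSK : ∀ g ∈ S, Uo V Z a g = Uo V Z a h ∧ ∀ x, x ∈ Uo V Z a h ∨ x ∉ V → g x = h x := by
      rintro g ⟨_, hg⟩
      rw [mem_ofPred_eq, Prod.mk.injEq] at hg
      refine ⟨hg.1, fun x hx => ?_⟩
      have := congrFun hg.2 x
      rw [hg.1, if_pos hx, if_pos hx] at this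
      exact this
    have hhS : h ∈ S := ⟨hh, rfl⟩
    by_cases hhA : h ∈ A
    · have e1 : Ex S (fun g => ind Aᶜ g * ((g v : ℝ) - a)) = Ex S (fun _ => 0) := by
        refine Ex_congr fun g hg => ?_
        have : g ∈ A := by
          rw [hAU] at hhA ⊢
          rw [(hSK g hg).1]
          exact hhA
        simp [ind, this]
      rw [e1, Ex_zero]
    · have e1 : Ex S (fun g => ind Aᶜ g * ((g v : ℝ) - a)) = Ex S (fun g => (g v : ℝ)) - a := by
        have e0 := Ex_sub (S := S) (fun g => (g v : ℝ)) (fun _ => (a : ℝ))
        rw [Ex_const hSf ⟨h, hhS⟩] at e0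
        rw [← e0]
        refine Ex_congr fun g hg => ?_
        have : g ∉ A := by
          rw [hAU] at hhA ⊢
          rw [(hSK g hg).1]
          exact hhA
        simp [ind, this]
      have e2 : Ex S (fun g => (g v : ℝ)) ≤ (a : ℝ) := by
        -- the boundary of the outer part
        set D : Set Pt := {x | (x ∈ V ∧ x ∉ Uo V Z a h) ∧ ∃ y, (y ∈ Uo V Z a h ∨ y ∉ V) ∧ Adj x y}
          with hD
        set J : Pt → Set ℤ := fun x => if x ∈ Uo V Z a h ∨ x ∉ V then {h x} else
          if x ∈ D then {b | b ∈ I x ∧ b ≤ a} else I x with hJ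
        set C : Set Hg := {g | D ⊆ Kd V Z a g} with hC
        have hCl : IsLowerSet C := fun g g' hgg hg => hg.trans (Kd_anti hgg)
        have hUK : ∀ g : Hg, Disjoint (Uo V Z a g) (Kd V Z a g) := by
          intro g
          rw [Set.disjoint_left]
          rintro x ⟨_, y, _, hc⟩ hx
          exact hc.left_mem hx
        have hDK : ∀ g : Hg, ∀ x ∈ V, x ∉ Uo V Z a g →
            (∃ y, (y ∈ Uo V Z a g ∨ y ∉ V) ∧ Adj x y) → x ∈ Kd V Z a g := by
          rintro g x hx hxU ⟨y, hy, hxy⟩
          by_contra hxK
          apply hxU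
          rcases hy with ⟨_, z, hz, hc⟩ | hy
          · exact ⟨hx, z, hz, ((Conn.refl (S := (Kd V Z a g)ᶜ) hxK).tail hxy hc.left_mem).trans hc⟩
          · refine ⟨hx, y, hy, (Conn.refl (S := (Kd V Z a g)ᶜ) hxK).tail hxy fun h1 => hy (Kd_subset h1)⟩
        have hSJ : S = Cfg V J ∩ C := by
          ext g
          constructor
          · intro hg
            have gC : g ∈ C := by
              rintro x ⟨⟨hx, hxU⟩, hx2⟩
              rw [← (hSK g hg).1] at hxU hx2
              exact hDK g x hx hxU hx2
            refine ⟨⟨hg.1.1, fun x => ?_, hg.1.2.2⟩, gC⟩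
            simp only [hJ]
            split_ifs with h1 h2
            · exact (hSK g hg).2 x h1
            · exact ⟨hg.1.2.1 x, (Cl_subset (gC h2)).2⟩
            · exact hg.1.2.1 x
          · rintro ⟨hg, gC⟩
            have g1 : ∀ x, x ∈ Uo V Z a h ∨ x ∉ V → g x = h x := fun x hx => by
              have := hg.2.1 x
              simp only [hJ] at this
              rw [if_pos hx] at this
              exact this
            have g3 : g ∈ Cfg V I := by
              refine ⟨hg.1, fun x => ?_, hg.2.2⟩
              by_cases hx : x ∈ Uo V Z a h ∨ x ∉ V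
              · rw [g1 x hx]
                exact hh.2.1 x
              · have := hg.2.1 x
                simp only [hJ] at this
                rw [if_neg hx] at this
                split_ifs at this
                · exact this.1
                · exact this
            -- the cluster does not enter the outer part
            have g4 : ∀ x ∈ Kd V Z a g, x ∉ Uo V Z a h := by
              rintro y ⟨x, hx, hxy⟩
              refine Conn.ind (S := V ∩ dn g a) (fun y => y ∉ Uo V Z a h)
                (fun h1 => Set.disjoint_left.1 (hUK h) h1 (hZK h hh x hx))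
                (fun u w hu huw hw ih => ?_) hxy
              intro hwU
              have huV : u ∈ V := hu.right_mem.1
              have huK : u ∈ Kd V Z a h := hDK h u huV ih ⟨w, Or.inl hwU, huw⟩
              have h5 := not_mem_Kd huK huw hw.1 fun h6 => Set.disjoint_left.1 (hUK h) hwU h6
              rw [← g1 w (Or.inl hwU)] at h5
              have h6 : g w ≤ a := hw.2
              omega
            have g2 : Uo V Z a g = Uo V Z a h := by
              apply Subset.antisymm
              · rintro x ⟨hx, y, hy, hc⟩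
                have : x ∈ Uo V Z a h ∨ x ∉ V := by
                  refine Conn.ind (S := (Kd V Z a g)ᶜ) (fun x => x ∈ Uo V Z a h ∨ x ∉ V)
                    (Or.inr hy) (fun u w hu huw hw ih => ?_) hc.symm
                  by_contra hcon
                  push Not at hcon
                  exact hw (gC ⟨⟨hcon.2, hcon.1⟩, u, ih, adj_symm huw⟩)
                rcases this with h1 | h1
                · exact h1
                · exact absurd hx h1
              · rintro x ⟨hx, y, hy, hc⟩
                refine ⟨hx, y, hy, ?_⟩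
                have h7 : Conn (Uo V Z a h ∪ Vᶜ) y x := by
                  refine Conn.ind (S := (Kd V Z a h)ᶜ) (fun x => Conn (Uo V Z a h ∪ Vᶜ) y x)
                    (Conn.refl (Or.inr hy)) (fun u w hu huw hw ih => ih.tail huw ?_) hc.symm
                  by_cases hwV : w ∈ V
                  · exact Or.inl ⟨hwV, y, hy, (hu.tail huw hw).symm⟩
                  · exact Or.inr hwV
                refine h7.symm.mono ?_
                rintro z (hz | hz) hzK
                · exact g4 z hzK hz
                · exact hz (Kd_subset hzK)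
            refine ⟨g3, ?_⟩
            rw [mem_ofPred_eq, Prod.mk.injEq]
            refine ⟨g2, ?_⟩
            funext x
            rw [g2]
            split_ifs with hx
            · exact g1 x hx
            · rfl
        have hJd : Dat V J := by
          refine ⟨hd.fin, fun x hx => ?_, hd.fin.subset fun x hx => ?_⟩
          · simp only [hJ]
            rw [if_pos (Or.inr hx)]
            exact Set.finite_singleton _
          · by_contra h1
            apply hx
            simp only [hJ]
            rw [if_pos (Or.inr h1)]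
            exact Set.subsingleton_singleton
        have hhJ : h ∈ Cfg V J ∩ C := hSJ ▸ hhS
        rw [hSJ]
        refine (Ex_inter_le hJd ⟨h, hhJ.1⟩ hCl ⟨h, hhJ⟩ (fun g => (g v : ℝ))
          (fun g g' hgg => Int.cast_le.2 (hgg v))).trans ?_
        refine mean_le' (W := {x | (x ∈ V ∧ x ∉ Uo V Z a h) ∧ x ∉ D}) ha hJd ⟨h, hhJ.1⟩
          (fun x hx => hx.1.1) ?_ ?_ ?_
        · rintro x ⟨⟨hx1, hx2⟩, hx3⟩
          have e : J x = I x := by
            simp only [hJ]
            rw [if_neg (by tauto), if_neg hx3]
          rw [e]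
          by_cases hxZ : x ∈ Z
          · exact Or.inr (hZ x hxZ)
          · exact Or.inl (hI x hx1 hxZ)
        · rintro x ⟨hx, z, hz, hzx⟩ g hg
          have h1 : ¬ (x ∈ Uo V Z a h ∨ x ∉ V) := fun h2 => hz.2 ⟨hz.1, x, h2, hzx⟩
          have h2 : x ∈ D := by
            by_contra h3
            push Not at h1
            exact hx ⟨⟨h1.2, h1.1⟩, h3⟩
          have h3 := hg.2.1 x
          simp only [hJ] at h3
          rw [if_neg h1, if_pos h2] at h3
          exact h3.2
        · have h1 : ¬ (v ∈ Uo V Z a h ∨ v ∉ V) := by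
            rw [hAU] at hhA
            tauto
          by_cases h2 : v ∈ D
          · right
            intro g hg
            have h3 := hg.2.1 v
            simp only [hJ] at h3
            rw [if_neg h1, if_pos h2] at h3
            exact h3.2
          · left
            push Not at h1
            exact ⟨⟨h1.2, h1.1⟩, h2⟩
      rw [e1]
      linarith
  rw [Ex_zero] at p2
  rw [Ex_const_mul, ← Pr_eq_Ex hf] at p1
  have p3 : Ex (Cfg V I) (fun h => (h v : ℝ)) - a =
      Ex (Cfg V I) (fun h => ind A h * ((h v : ℝ) - a)) +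
      Ex (Cfg V I) (fun h => ind Aᶜ h * ((h v : ℝ) - a)) := by
    have e0 := Ex_sub (S := Cfg V I) (fun g => (g v : ℝ)) (fun _ => (a : ℝ))
    rw [Ex_const hf hne] at e0
    rw [← Ex_add, ← e0]
    refine Ex_congr fun h _ => ?_
    by_cases h1 : h ∈ A <;> simp [ind, h1]
  linarith

end Vale.Agent.P153.R2.PLAN
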