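import Vale.Agent.P153.R2.PLAN.Mean

/-!
P153-R2, block PLAN: DUAL. If the cluster `G` of `p` in `V ∩ {h ≤ a}` is next to the walls and
does not contain `q`, and `q` is joined to the walls off `G`, then `p` and `q` are separated in `V`
by the vertices `{h ≥ a + 2}` which are joined to the walls inside `{h ≥ a + 2}`.
-/

namespace Vale.Agent.P153.R2.PLAN

open Set Relation
open Vale.Agent.P153 Vale.Agent.P153.Topo

variable {V B B' G S : Set Pt} {h g : Hg} {a b : ℤ} {p q : Pt}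

/-- First exit from `V` along a path in `S`. -/
theorem first_exit {x y : Pt} (hx : x ∈ V) (hy : y ∉ V) (hxy : Conn S x y) :
    ∃ u o, Conn (S ∩ V) x u ∧ Adj u o ∧ o ∈ S ∧ o ∉ V := by
  by_contra hcon
  push Not at hcon
  have key : Conn (S ∩ V) x y :=
    Conn.ind (S := S) (fun y => Conn (S ∩ V) x y) (Conn.refl ⟨hxy.left_mem, hx⟩)
      (fun u w _ huw hw ih => ih.tail huw ⟨hw, hcon u w ih huw hw⟩) hxy
  exact hy key.right_mem.2

/-- The outer boundary of a connected set next to the walls: each piece reaches the walls. -/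
theorem dual (hV : CC V) (hGV : G ⊆ V) (hG : Cn G) {x₀ o₀ x₁ y o : Pt} (hx₀ : x₀ ∈ G)
    (ho₀ : o₀ ∉ V) (h₀ : Adj x₀ o₀) (hx₁ : x₁ ∈ G) (hy : y ∈ V) (h₁ : Adj x₁ y) (ho : o ∉ V)
    (hyo : Conn Gᶜ y o) :
    ∃ u o', Conn {z | z ∈ V ∧ z ∉ G ∧ ∃ x ∈ G, Adj x z} y u ∧ Adj u o' ∧ o' ∉ V := by
  set W : Set Pt := {z | Conn Gᶜ o₀ z} with hW
  have hcm : Vᶜ ⊆ Gᶜ := compl_subset_compl.2 hGV
  have hoo : Conn Gᶜ o₀ o := (hV o₀ o ho₀ ho).mono hcm
  have hWc : ∀ x ∈ W, ∀ z ∈ W, Conn W x z := by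
    have h1 : ∀ x ∈ W, Conn W o₀ x := by
      intro x hx
      exact Conn.ind (S := Gᶜ) (fun z => Conn W o₀ z) (Conn.refl (Conn.refl (hcm ho₀)))
        (fun u w hu huw hw ih => ih.tail huw (hu.tail huw hw)) hx
    exact fun x hx z hz => (h1 x hx).symm.trans (h1 z hz)
  have hdis : Disjoint G W := by
    rw [Set.disjoint_left]
    intro x hx hxW
    exact (Conn.right_mem hxW) hx
  have hcl : ∀ x ∈ W, ∀ z, Adj x z → z ∉ G → z ∈ W := fun x hx z hxz hz => hx.tail hxz hz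
  have hyW : y ∈ W := hoo.trans hyo.symm
  have hoc := outer_connected hdis hG hWc hcl (v := y) (w := o₀) ⟨hyW, x₁, hx₁, h₁⟩
    ⟨Conn.refl (hcm ho₀), x₀, hx₀, h₀⟩
  obtain ⟨u, o', h2, h3, _, h5⟩ := first_exit hy ho₀ hoc
  refine ⟨u, o', h2.mono ?_, h3, h5⟩
  rintro z ⟨⟨hz1, hz2⟩, hz3⟩
  exact ⟨hz3, fun hzG => Set.disjoint_left.1 hdis hzG hz1, hz2⟩

/-- The vertices of the block `B` which are joined to the walls in `B ∩ {h ≥ b}`. -/
def Att (V B : Set Pt) (h : Hg) (b : ℤ) : Set Pt :=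
  {y | ∃ u o, Conn (V ∩ B ∩ up h b) y u ∧ Adj u o ∧ o ∉ V}

/-- The attached `{h ≥ b}`-vertices of the block `B` separate `p` from `q` in `V`. -/
def SepAtt (V B : Set Pt) (b : ℤ) (p q : Pt) : Set Hg := {h | ¬ Conn (V \ Att V B h b) p q}

theorem Att.mono (hB : B ⊆ B') (hgh : g ≤ h) : Att V B g b ⊆ Att V B' h b := by
  rintro y ⟨u, o, h1, h2, h3⟩
  refine ⟨u, o, h1.mono ?_, h2, h3⟩
  rintro x ⟨⟨hx1, hx2⟩, hx3⟩
  exact ⟨⟨hx1, hB hx2⟩, le_trans hx3 (hgh x)⟩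

theorem Att.subset : Att V B h b ⊆ V ∩ B ∩ up h b := by
  rintro y ⟨u, o, h1, _⟩
  exact h1.left_mem

theorem SepAtt.upper : IsUpperSet (SepAtt V B b p q) := fun _ _ hgh hg hc =>
  hg (hc.mono (sdiff_subset_sdiff_right (Att.mono subset_rfl hgh)))

theorem SepAtt.mono_block (hB : B ⊆ B') : SepAtt V B b p q ⊆ SepAtt V B' b p q :=
  fun _ hg hc => hg (hc.mono (sdiff_subset_sdiff_right (Att.mono hB le_rfl)))

theorem Att.congr (hgh : ∀ x ∈ V ∩ B, g x = h x) : Att V B g b = Att V B h b := by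
  have key : V ∩ B ∩ up g b = V ∩ B ∩ up h b := by
    ext x
    constructor
    · rintro ⟨h1, h2⟩
      refine ⟨h1, ?_⟩
      have h3 : b ≤ g x := h2
      rw [hgh x h1] at h3
      exact h3
    · rintro ⟨h1, h2⟩
      refine ⟨h1, ?_⟩
      have h3 : b ≤ h x := h2
      rw [← hgh x h1] at h3
      exact h3
  unfold Att
  rw [key]

/-- The event depends on the heights in `V ∩ B` only. -/
theorem SepAtt.congr (hgh : ∀ x ∈ V ∩ B, g x = h x) :
    g ∈ SepAtt V B b p q ↔ h ∈ SepAtt V B b p q := by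
  unfold SepAtt
  rw [mem_ofPred_eq, mem_ofPred_eq, Att.congr hgh]

theorem dn_subset (hab : a < b) : V ∩ dn h a ⊆ V \ Att V B h b := by
  rintro x ⟨hx1, hx2⟩
  refine ⟨hx1, fun hxA => ?_⟩
  have h1 : b ≤ h x := (Att.subset hxA).2
  have h2 : h x ≤ a := hx2
  omega

/-- No `{h < b}` path joins `p` to `q`, on the event `SepAtt`. -/
theorem SepAtt.not_conn (hh : h ∈ SepAtt V B b p q) (hab : a < b) : ¬ Conn (V ∩ dn h a) p q := by
  intro hc
  exact hh (hc.mono (dn_subset hab))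

/-- A connected set off the block may be added at `p` and at `q`. -/
theorem SepAtt.not_conn' {N N' : Set Pt} (hh : h ∈ SepAtt V B b p q) (hab : a < b) (hN : Cn N)
    (hN' : Cn N') (hp : p ∈ N) (hq : q ∈ N') (hNV : N ⊆ V \ B) (hNV' : N' ⊆ V \ B) {x y : Pt}
    (hx : x ∈ N) (hy : y ∈ N') : ¬ Conn (V ∩ dn h a) x y := by
  intro hc
  have hsub : V \ B ⊆ V \ Att V B h b := by
    rintro z ⟨hz1, hz2⟩
    exact ⟨hz1, fun hzA => hz2 (Att.subset hzA).1.2⟩
  exact hh (((hN p hp x hx).mono (hNV.trans hsub)).trans ((hc.mono (dn_subset hab)).trans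
    ((hN' y hy q hq).mono (hNV'.trans hsub))))

/-- **DUAL.** -/
theorem dual_sep (hV : CC V) (ho : ∀ x, Odd (h x)) (ha : Odd a) (hB : ∀ x ∈ V, x ∉ B → h x ≤ a)
    {x₀ o₀ : Pt} (hp : Conn (V ∩ dn h a) p x₀) (h₀ : Adj x₀ o₀) (ho₀ : o₀ ∉ V)
    (hpq : ¬ Conn (V ∩ dn h a) p q) {o : Pt} (hq : Conn (Kd V {p} a h)ᶜ q o) (hoV : o ∉ V) :
    h ∈ SepAtt V B (a + 2) p q := by
  intro hc
  set G := Kd V {p} a h with hG
  have hpG : p ∈ G := ⟨p, rfl, Conn.refl hp.left_mem⟩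
  have hx₀ : x₀ ∈ G := ⟨p, rfl, hp⟩
  have hGc : Cn G := by
    have h1 : ∀ x ∈ G, Conn G p x := by
      rintro x ⟨z, hz, hzx⟩
      rw [mem_singleton_iff] at hz
      subst hz
      exact conn_Cl (A := {z}) rfl hzx
    exact fun x hx y hy => (h1 x hx).symm.trans (h1 y hy)
  have key : ∀ z, Conn (V \ Att V B h (a + 2)) q z → Conn Gᶜ z o := by
    intro z hz
    refine Conn.ind (S := V \ Att V B h (a + 2)) (fun z => Conn Gᶜ z o) hq
      (fun u w hu huw hw ih => ?_) hz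
    have huG : u ∉ G := ih.left_mem
    have huV := hu.right_mem
    have hwG : w ∉ G := by
      intro hwG
      obtain ⟨v, o', h1, h2, h3⟩ := dual hV Kd_subset hGc hx₀ ho₀ h₀ hwG huV.1 (adj_symm huw) hoV ih
      refine huV.2 ⟨v, o', h1.mono ?_, h2, h3⟩
      rintro x ⟨hxV, hxG, y, hy, hyx⟩
      have h4 : a < h x := not_mem_Kd hy hyx hxV hxG
      have h5 : a + 2 ≤ h x := by
        have h6 := ho x
        rw [Int.odd_iff] at h6 ha
        omega
      refine ⟨⟨hxV, ?_⟩, h5⟩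
      by_contra hxB
      have := hB x hxV hxB
      omega
    exact ((Conn.refl (S := Gᶜ) hwG).tail (adj_symm huw) huG).trans ih
  exact (key p hc.symm).left_mem hpG

/-- The usual way to get the hypotheses of `dual_sep` for `q`. -/
theorem joined_off {x₀ o₀ : Pt} (hq : Conn (V ∩ dn h a) q x₀) (h₀ : Adj x₀ o₀) (ho₀ : o₀ ∉ V)
    (hpq : ¬ Conn (V ∩ dn h a) p q) : Conn (Kd V {p} a h)ᶜ q o₀ := by
  have h1 : Conn (Kd V {p} a h)ᶜ q x₀ := by
    refine (Conn.ind (S := V ∩ dn h a) (fun z => Conn (V ∩ dn h a) q z ∧ Conn (Kd V {p} a h)ᶜ q z)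
      ⟨Conn.refl hq.left_mem, Conn.refl ?_⟩ (fun u w _ huw hw ih => ?_) hq).2
    · rintro ⟨z, hz, hzq⟩
      rw [mem_singleton_iff] at hz
      subst hz
      exact hpq hzq
    · have h2 := ih.1.tail huw hw
      refine ⟨h2, ih.2.tail huw ?_⟩
      rintro ⟨z, hz, hzw⟩
      rw [mem_singleton_iff] at hz
      subst hz
      exact hpq (hzw.trans h2.symm)
  exact h1.tail h₀ fun h2 => ho₀ (Kd_subset h2)

/-- A connected set which meets `V` and the walls contains a vertex of `V`, joined to the given one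
inside it, next to the walls. -/
theorem adj_of_meet {N : Set Pt} (hN : Cn N) (hp : p ∈ N) (hpV : p ∈ V) {o : Pt} (ho : o ∈ N)
    (hoV : o ∉ V) : ∃ u o', Conn (N ∩ V) p u ∧ Adj u o' ∧ o' ∉ V := by
  obtain ⟨u, o', h1, h2, _, h4⟩ := first_exit hpV hoV (hN p hp o ho)
  exact ⟨u, o', h1, h2, h4⟩

end Vale.Agent.P153.R2.PLAN
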