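import Vale.Agent.P153.R2.PLAN.Star
import Vale.Agent.P153.R2.PLAN.Dual

/-!
P153-R2, block PLAN: boxes; L0 = landing in an annulus, in the form `SepAtt`.
-/

namespace Vale.Agent.P153.R2.PLAN

open Set Relation
open Vale.Agent.P153 Vale.Agent.P153.Topo
open Vale.Agent.P153.R2 (bx)

variable {S V Z B : Set Pt} {h : Hg} {a : ℤ} {p q : Pt}

theorem conn_hor {x1 y1 c : ℤ} (hS : ∀ t, min x1 y1 ≤ t → t ≤ max x1 y1 → (t, c) ∈ S) :
    Conn S (x1, c) (y1, c) := by
  have key : ∀ n : ℕ, ∀ x1 : ℤ, (∀ t, x1 ≤ t → t ≤ x1 + n → (t, c) ∈ S) →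
      Conn S (x1, c) (x1 + n, c) := by
    intro n
    induction n with
    | zero =>
      intro x1 h
      have e : x1 + ((0 : ℕ) : ℤ) = x1 := by simp
      rw [e]
      exact Conn.refl (h x1 le_rfl (by simp))
    | succ n ih =>
      intro x1 h
      refine (ih x1 fun t h1 h2 => h t h1 (by push_cast; omega)).tail ?_ (h _ (by omega) le_rfl)
      rw [adj_iff]
      dsimp only
      push_cast
      omega
  rcases le_total x1 y1 with h1 | h1
  · obtain ⟨n, rfl⟩ := Int.le.dest h1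
    exact key n x1 fun t h2 h3 => hS t (by rw [min_eq_left h1]; exact h2)
      (by rw [max_eq_right h1]; exact h3)
  · obtain ⟨n, rfl⟩ := Int.le.dest h1
    exact (key n y1 fun t h2 h3 => hS t (by rw [min_eq_right h1]; exact h2)
      (by rw [max_eq_left h1]; exact h3)).symm

theorem conn_ver {x2 y2 c : ℤ} (hS : ∀ t, min x2 y2 ≤ t → t ≤ max x2 y2 → (c, t) ∈ S) :
    Conn S (c, x2) (c, y2) := by
  have key : ∀ n : ℕ, ∀ x2 : ℤ, (∀ t, x2 ≤ t → t ≤ x2 + n → (c, t) ∈ S) →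
      Conn S (c, x2) (c, x2 + n) := by
    intro n
    induction n with
    | zero =>
      intro x1 h
      have e : x1 + ((0 : ℕ) : ℤ) = x1 := by simp
      rw [e]
      exact Conn.refl (h x1 le_rfl (by simp))
    | succ n ih =>
      intro x1 h
      refine (ih x1 fun t h1 h2 => h t h1 (by push_cast; omega)).tail ?_ (h _ (by omega) le_rfl)
      rw [adj_iff]
      dsimp only
      push_cast
      omega
  rcases le_total x2 y2 with h1 | h1
  · obtain ⟨n, rfl⟩ := Int.le.dest h1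
    exact key n x2 fun t h2 h3 => hS t (by rw [min_eq_left h1]; exact h2)
      (by rw [max_eq_right h1]; exact h3)
  · obtain ⟨n, rfl⟩ := Int.le.dest h1
    exact (key n y2 fun t h2 h3 => hS t (by rw [min_eq_right h1]; exact h2)
      (by rw [max_eq_left h1]; exact h3)).symm

/-- Boxes are connected. -/
theorem cn_bx (p : Pt) (r : ℤ) : Cn (bx p r) := by
  rintro ⟨x1, x2⟩ hx ⟨y1, y2⟩ hy
  simp only [bx, mem_ofPred_eq, abs_le] at hx hy
  refine (conn_hor (x1 := x1) (y1 := y1) fun t h1 h2 => ?_).trans (conn_ver fun t h1 h2 => ?_)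
  · simp only [bx, mem_ofPred_eq, abs_le]
    omega
  · simp only [bx, mem_ofPred_eq, abs_le]
    omega

/-- The complement of a box is connected. -/
theorem cn_compl_bx (p : Pt) (r : ℤ) : Cn (bx p r)ᶜ := by
  have key : ∀ x ∈ (bx p r)ᶜ, Conn (bx p r)ᶜ x (p.1 + |r| + 1, p.2 + |r| + 1) := by
    rintro ⟨x1, x2⟩ hx
    have hr := le_abs_self r
    simp only [bx, mem_compl_iff, mem_ofPred_eq] at hx
    by_cases h1 : |x1 - p.1| ≤ r
    · have h2 : ¬ |x2 - p.2| ≤ r := fun h => hx ⟨h1, h⟩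
      refine (conn_hor (x1 := x1) (y1 := p.1 + |r| + 1) fun t _ _ => ?_).trans
        (conn_ver fun t _ _ => ?_)
      · simp only [bx, mem_compl_iff, mem_ofPred_eq]
        exact fun h => h2 h.2
      · simp only [bx, mem_compl_iff, mem_ofPred_eq, abs_le]
        intro h
        omega
    · refine (conn_ver (x2 := x2) (y2 := p.2 + |r| + 1) fun t _ _ => ?_).trans
        (conn_hor fun t _ _ => ?_)
      · simp only [bx, mem_compl_iff, mem_ofPred_eq]
        exact fun h => h1 h.1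
      · simp only [bx, mem_compl_iff, mem_ofPred_eq, abs_le]
        intro h
        omega
  exact fun x hx y hy => (key x hx).trans (key y hy).symm

theorem bx_mono {r r' : ℤ} (h : r ≤ r') : bx p r ⊆ bx p r' := fun _ hx => ⟨hx.1.trans h, hx.2.trans h⟩

theorem bx_finite (p : Pt) (r : ℤ) : (bx p r).Finite := by
  refine ((Set.finite_Icc (p.1 - r) (p.1 + r)).prod (Set.finite_Icc (p.2 - r) (p.2 + r))).subset ?_
  rintro ⟨x1, x2⟩ hx
  simp only [bx, mem_ofPred_eq, abs_le] at hx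
  simp only [mem_prod, mem_Icc]
  omega

theorem mem_ring_of_adj {r : ℤ} {x y : Pt} (hx : x ∈ bx p r) (hy : y ∉ bx p r) (hxy : Adj x y) :
    x ∈ Ring p r := by
  refine ⟨hx.1, hx.2, ?_⟩
  rw [adj_iff] at hxy
  simp only [bx, mem_ofPred_eq, abs_le] at hx hy
  by_contra hcon
  push Not at hcon
  have h1 : x.1 - p.1 ≠ r := by
    intro h
    exact hcon.1 (by rw [h, abs_of_nonneg (by omega)])
  have h2 : x.1 - p.1 ≠ -r := by
    intro h
    exact hcon.1 (by rw [h, abs_of_nonpos (by omega), neg_neg])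
  have h3 : x.2 - p.2 ≠ r := by
    intro h
    exact hcon.2 (by rw [h, abs_of_nonneg (by omega)])
  have h4 : x.2 - p.2 ≠ -r := by
    intro h
    exact hcon.2 (by rw [h, abs_of_nonpos (by omega), neg_neg])
  omega

/-- A connected set which meets the box and its complement meets the boundary of the box. -/
theorem meets_ring {r : ℤ} {x y : Pt} (hx : x ∈ bx p r) (hy : y ∉ bx p r) (hxy : Conn S x y) :
    ∃ u ∈ Ring p r, u ∈ S ∧ Conn (S ∩ bx p r) x u := by
  obtain ⟨u, o, h1, h2, h3, h4⟩ := first_exit hx hy hxy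
  exact ⟨u, mem_ring_of_adj h1.right_mem.2 h4 h2, h1.right_mem.1, h1⟩

/-- `V` is finite: its complement is not contained in a box. -/
theorem exists_not_mem (hV : V.Finite) (p : Pt) (r : ℤ) : ∃ o, o ∉ V ∧ o ∉ bx p r := by
  by_contra hcon
  push Not at hcon
  have : (univ : Set Pt) ⊆ V ∪ bx p r := fun x _ => by
    by_cases h : x ∈ V
    · exact Or.inl h
    · exact Or.inr (hcon x h)
  exact Set.infinite_univ ((hV.union (bx_finite p r)).subset this)

/-- If the walls meet the box they meet its boundary. -/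
theorem walls_ring (hV : CC V) (hf : V.Finite) {r : ℤ} {o : Pt} (ho : o ∈ bx p r) (hoV : o ∉ V) :
    ∃ z ∈ Ring p r, z ∉ V := by
  obtain ⟨o', h1, h2⟩ := exists_not_mem hf p r
  obtain ⟨u, h3, h4, _⟩ := meets_ring ho h2 (hV o o' hoV h1)
  exact ⟨u, h3, h4⟩

/-- **L0: landing in an annulus.** `V` is simply connected, its data are `a` off the block
`B = bx x₀ r₂ \ bx x₀ r₁` (at least), in `{a, a + 2}` on the walls; the walls meet the inner box;
the vertices of `V` on the middle ring are good. Then the attached `{h ≥ a + 2}`-vertices of the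
block separate `p` from `q` with probability at least `α ^ 2`. -/
theorem land_box {I : Pt → Set ℤ} (ha : Odd a) (hd : Dat V I) (hne : (Cfg V I).Nonempty)
    (hV : CC V) (hZV : Z ⊆ V) (hZ : ∀ x ∈ Z, ∀ b ∈ I x, b = a) (hI : ∀ x ∈ V, x ∉ Z → I x = univ)
    (hw : ∀ x ∈ ebd V, ∀ b ∈ I x, a ≤ b ∧ b ≤ a + 2) {x₀ : Pt} {r₁ r₂ : ℤ} {r : ℕ}
    (h₁ : r₁ < r) (h₂ : (r : ℤ) < r₂) (h₀ : 0 < r) (hB : V \ (bx x₀ r₂ \ bx x₀ r₁) ⊆ Z)
    (hpV : p ∈ V) (hp : p ∈ bx x₀ r₁) (hqV : q ∈ V) (hq : q ∉ bx x₀ r₂) {o : Pt}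
    (ho : o ∈ bx x₀ r₁) (hoV : o ∉ V) {n : ℕ} {η θ α : ℝ} (hη : 0 ≤ η) (hθ : 0 ≤ θ) (hα : 0 ≤ α)
    (hα1 : 2 * α ≤ (1 / 192) ^ n) (hα2 : 2 * α ≤ η * θ)
    (hst : ∀ w ∈ Ring x₀ r, w ∈ V → Good V Z I a n η θ w) :
    α ^ 2 ≤ Pr (Cfg V I) (SepAtt V (bx x₀ r₂ \ bx x₀ r₁) (a + 2) p q) := by
  have hf := Cfg_finite hd
  by_cases hpq : Conn V p q
  swap
  · have e : SepAtt V (bx x₀ r₂ \ bx x₀ r₁) (a + 2) p q = univ := by
      ext h
      simp only [mem_univ, iff_true]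
      exact fun hc => hpq (hc.mono sdiff_subset)
    rw [e, Pr_univ hf hne]
    have : α ≤ 1 / 2 := by
      have := hα1.trans (pow_le_one₀ (n := n) (by norm_num : (0 : ℝ) ≤ 1 / 192) (by norm_num))
      linarith
    nlinarith
  have hZa : ∀ h ∈ Cfg V I, ∀ x ∈ V, x ∉ bx x₀ r₂ \ bx x₀ r₁ → h x = a := fun h hh x hx hxB =>
    hZ x (hB ⟨hx, hxB⟩) _ (hh.2.1 x)
  have hpr : p ∈ cor ((p.1, p.2), false) := by
    rw [cor_false]
    simp
  have hqr : q ∈ cor ((q.1, q.2), false) := by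
    rw [cor_false]
    simp
  obtain ⟨C⟩ := exists_cut (O := Vᶜ) (by rw [compl_compl]; exact hpq) hpr hqr
  obtain ⟨w, m, hx⟩ := exists_crosscut C (p := x₀) h₀ (by
    intro v hv
    rw [cor_false] at hv
    simp only [Finset.mem_insert, Finset.mem_singleton] at hv
    simp only [bx, mem_ofPred_eq, abs_le] at hp
    show v ∈ bx x₀ r
    simp only [bx, mem_ofPred_eq, abs_le]
    rcases hv with rfl | rfl | rfl <;> dsimp only <;> omega) (by
    intro h
    have h5 := h q hqr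
    exact hq (bx_mono h₂.le h5)) (walls_ring hV hd.fin (bx_mono h₁.le ho) hoV)
  refine (land_good ha hd hne hV hZV hZ hI hw hpr hqr (hB ⟨hpV, fun h => h.2 hp⟩) C hx hη hθ hα hα1
    hα2 fun k hk hkm => hst _ (hx.mem k hkm.le) ?_).trans (Pr_mono fun h hh hc => ?_)
  · have := hx.int k hk hkm
    by_contra h5
    exact this h5
  · obtain ⟨u, o', g1, g2, g3⟩ := adj_of_meet (cn_bx x₀ r₁) hp hpV ho hoV
    obtain ⟨o₂, g4, g5⟩ := exists_not_mem hd.fin x₀ r₂
    obtain ⟨u', o'', g6, g7, g8⟩ := adj_of_meet (cn_compl_bx x₀ r₂) hq hqV g5 g4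
    have k1 : bx x₀ r₁ ∩ V ⊆ V ∩ dn h a := by
      rintro x ⟨hx1, hx2⟩
      exact ⟨hx2, (hZa h hh x hx2 fun h5 => h5.2 hx1).le⟩
    have k2 : (bx x₀ r₂)ᶜ ∩ V ⊆ V ∩ dn h a := by
      rintro x ⟨hx1, hx2⟩
      exact ⟨hx2, (hZa h hh x hx2 fun h5 => hx1 h5.1).le⟩
    refine dual_sep hV hh.1 ha (fun x hx hxB => (hZa h hh x hx hxB).le) (g1.mono k1) g2 g3 hc
      (joined_off (g6.mono k2) g7 g8 hc) g8

end Vale.Agent.P153.R2.PLAN
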