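import Vale.Agent.P153.R2.PLAN.Cob

/-!
P153, block PLAN: parity of paths in simply connected sets of the triangular lattice.

`O` is the outside of the domain (connected), `s` and `t` are two triangles. A `Cut O s t` is a
cochain on the edges of the lattice with values in `ZMod 2` which vanishes on the edges of `O` and
whose sum around a triangle is `1` exactly for `s` and `t`. The sum of it along a path from `O` to
`O` is the parity of the path: if it is `1`, the path separates `s` from `t` in the domain.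
-/

namespace Vale.Agent.P153.R2.PLAN

open Vale.Agent.P153 Vale.Agent.P153.Topo Relation

/-- Triangles of the lattice. -/
abbrev Tri : Type := (ℤ × ℤ) × Bool

/-- The corners of a triangle. -/
def cor : Tri → Finset (ℤ × ℤ)
  | ((i, j), false) => {(i, j), (i + 1, j), (i, j + 1)}
  | ((i, j), true) => {(i + 1, j), (i, j + 1), (i + 1, j + 1)}

theorem cor_false (i j : ℤ) : cor ((i, j), false) = {(i, j), (i + 1, j), (i, j + 1)} := by
  simp only [cor]

theorem cor_true (i j : ℤ) : cor ((i, j), true) = {(i + 1, j), (i, j + 1), (i + 1, j + 1)} := by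
  simp only [cor]

/-- Sum of a cochain around a triangle. -/
def tsum (c : ℤ × ℤ → ℤ × ℤ → ZMod 2) : Tri → ZMod 2
  | ((i, j), false) => c (i, j) (i + 1, j) + c (i, j) (i, j + 1) + c (i + 1, j) (i, j + 1)
  | ((i, j), true) => c (i + 1, j) (i, j + 1) + c (i + 1, j) (i + 1, j + 1) +
      c (i, j + 1) (i + 1, j + 1)

/-- Indicator of a triangle. -/
def tind (s r : Tri) : ZMod 2 := if r = s then 1 else 0

theorem z2 (a : ZMod 2) : a + a = 0 := by
  revert a; decide

/-- `s` and `t` are joined by a dual path which crosses only edges with an end in `K`. -/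
def Hug (K : Set (ℤ × ℤ)) (s t : Tri) : Prop :=
  ∃ c : ℤ × ℤ → ℤ × ℤ → ZMod 2, (∀ x y, c x y = c y x) ∧ (∀ r, tsum c r = tind s r + tind t r) ∧
    ∀ x y, x ∉ K → y ∉ K → c x y = 0

theorem tsum_add (c d : ℤ × ℤ → ℤ × ℤ → ZMod 2) (r : Tri) :
    tsum (fun x y => c x y + d x y) r = tsum c r + tsum d r := by
  obtain ⟨⟨i, j⟩, b⟩ := r
  cases b <;> simp only [tsum] <;> ring

variable {K : Set (ℤ × ℤ)} {s t r : Tri}

theorem Hug.refl (s : Tri) : Hug K s s := by
  refine ⟨fun _ _ => 0, fun _ _ => rfl, fun r => ?_, fun _ _ _ _ => rfl⟩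
  obtain ⟨⟨i, j⟩, b⟩ := r
  rw [z2]
  cases b <;> simp [tsum]

theorem Hug.symm (h : Hug K s t) : Hug K t s := by
  obtain ⟨c, h1, h2, h3⟩ := h
  exact ⟨c, h1, fun r => by rw [h2, add_comm], h3⟩

theorem Hug.trans (h : Hug K s t) (h' : Hug K t r) : Hug K s r := by
  obtain ⟨c, h1, h2, h3⟩ := h
  obtain ⟨d, h4, h5, h6⟩ := h'
  refine ⟨fun x y => c x y + d x y, fun x y => ?_, fun q => ?_, fun x y hx hy => ?_⟩
  · show c x y + d x y = c y x + d y x
    rw [h1 x y, h4 x y]
  · rw [tsum_add, h2, h5]
    have := z2 (tind t q)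
    linear_combination this
  · show c x y + d x y = 0
    rw [h3 x y hx hy, h6 x y hx hy, add_zero]

theorem Hug.mono {L : Set (ℤ × ℤ)} (h : Hug K s t) (hKL : K ⊆ L) : Hug L s t := by
  obtain ⟨c, h1, h2, h3⟩ := h
  exact ⟨c, h1, h2, fun x y hx hy => h3 x y (fun h => hx (hKL h)) fun h => hy (hKL h)⟩

/-- The indicator of an edge. -/
def ec (e : Sym2 (ℤ × ℤ)) (x y : ℤ × ℤ) : ZMod 2 := if s(x, y) = e then 1 else 0

theorem hug_ec {a b : ℤ × ℤ} (hab : a ∈ K ∨ b ∈ K)
    (h : ∀ r, tsum (ec s(a, b)) r = tind s r + tind t r) : Hug K s t := by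
  refine ⟨ec s(a, b), fun x y => ?_, h, fun x y hx hy => ?_⟩
  · unfold ec
    rw [Sym2.eq_swap]
  · unfold ec
    rw [if_neg]
    intro h
    rw [Sym2.eq_iff] at h
    rcases h with ⟨rfl, rfl⟩ | ⟨rfl, rfl⟩ <;> tauto

theorem ec_val {x y p q : ℤ × ℤ} {P : Prop} [Decidable P]
    (h : (x = p ∧ y = q ∨ x = q ∧ y = p) ↔ P) : ec s(p, q) x y = if P then 1 else 0 := by
  unfold ec
  rw [← Sym2.eq_iff] at h
  by_cases hP : P
  · rw [if_pos hP, if_pos (h.2 hP)]
  · rw [if_neg hP, if_neg fun h' => hP (h.1 h')]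

theorem ec_zero {x y p q : ℤ × ℤ} (h : ¬ (x = p ∧ y = q ∨ x = q ∧ y = p)) :
    ec s(p, q) x y = 0 := by
  unfold ec
  rw [if_neg fun h' => h (Sym2.eq_iff.1 h')]

theorem tind_val {i j a b : ℤ} {c : Bool} :
    tind ((i, j), c) ((a, b), c) = if a = i ∧ b = j then 1 else 0 := by
  unfold tind
  simp only [Prod.mk.injEq, and_true]

theorem tind_zero {i j a b : ℤ} {c d : Bool} (h : c ≠ d) : tind ((i, j), c) ((a, b), d) = 0 := by
  unfold tind
  rw [if_neg]
  intro h'
  exact h (congrArg Prod.snd h').symm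

theorem hug_hor {i j : ℤ} (h : (i, j) ∈ K ∨ (i + 1, j) ∈ K) :
    Hug K ((i, j), false) ((i, j - 1), true) := by
  refine hug_ec h fun r => ?_
  obtain ⟨⟨a, b⟩, c⟩ := r
  cases c
  · rw [tind_val, tind_zero (by decide), add_zero]
    simp only [tsum]
    rw [ec_val (P := a = i ∧ b = j) (by simp only [Prod.mk.injEq]; omega),
      ec_zero (by simp only [Prod.mk.injEq]; omega), ec_zero (by simp only [Prod.mk.injEq]; omega),
      add_zero, add_zero]
  · rw [tind_val, tind_zero (by decide), zero_add]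
    simp only [tsum]
    rw [ec_val (x := (a, b + 1)) (P := a = i ∧ b = j - 1) (by simp only [Prod.mk.injEq]; omega),
      ec_zero (by simp only [Prod.mk.injEq]; omega), ec_zero (by simp only [Prod.mk.injEq]; omega),
      zero_add, zero_add]

theorem hug_vert {i j : ℤ} (h : (i, j) ∈ K ∨ (i, j + 1) ∈ K) :
    Hug K ((i, j), false) ((i - 1, j), true) := by
  refine hug_ec h fun r => ?_
  obtain ⟨⟨a, b⟩, c⟩ := r
  cases c
  · rw [tind_val, tind_zero (by decide), add_zero]
    simp only [tsum]
    rw [ec_val (x := (a, b)) (y := (a, b + 1)) (P := a = i ∧ b = j)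
        (by simp only [Prod.mk.injEq]; omega),
      ec_zero (by simp only [Prod.mk.injEq]; omega), ec_zero (by simp only [Prod.mk.injEq]; omega),
      zero_add, add_zero]
  · rw [tind_val, tind_zero (by decide), zero_add]
    simp only [tsum]
    rw [ec_val (x := (a + 1, b)) (y := (a + 1, b + 1)) (P := a = i - 1 ∧ b = j)
        (by simp only [Prod.mk.injEq]; omega),
      ec_zero (by simp only [Prod.mk.injEq]; omega), ec_zero (by simp only [Prod.mk.injEq]; omega),
      zero_add, add_zero]

theorem hug_diag {i j : ℤ} (h : (i + 1, j) ∈ K ∨ (i, j + 1) ∈ K) :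
    Hug K ((i, j), false) ((i, j), true) := by
  refine hug_ec h fun r => ?_
  obtain ⟨⟨a, b⟩, c⟩ := r
  cases c
  · rw [tind_val, tind_zero (by decide), add_zero]
    simp only [tsum]
    rw [ec_val (x := (a + 1, b)) (P := a = i ∧ b = j)
        (by simp only [Prod.mk.injEq]; omega),
      ec_zero (by simp only [Prod.mk.injEq]; omega), ec_zero (by simp only [Prod.mk.injEq]; omega),
      zero_add, zero_add]
  · rw [tind_val, tind_zero (by decide), zero_add]
    simp only [tsum]
    rw [ec_val (x := (a + 1, b)) (P := a = i ∧ b = j)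
        (by simp only [Prod.mk.injEq]; omega),
      ec_zero (by simp only [Prod.mk.injEq]; omega), ec_zero (by simp only [Prod.mk.injEq]; omega),
      add_zero, add_zero]

/-- The six triangles around a vertex of `K`. -/
theorem hug_star {v : ℤ × ℤ} (hv : v ∈ K) {s : Tri} (hs : v ∈ cor s) :
    Hug K (v, false) s := by
  obtain ⟨a, b⟩ := v
  have e1 : Hug K ((a, b), false) ((a, b - 1), true) := hug_hor (Or.inl hv)
  have e2 : Hug K ((a - 1, b), false) ((a - 1, b - 1), true) :=
    hug_hor (i := a - 1) (j := b) (Or.inr (by rwa [sub_add_cancel]))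
  have e3 : Hug K ((a, b), false) ((a - 1, b), true) := hug_vert (Or.inl hv)
  have e4 : Hug K ((a, b - 1), false) ((a - 1, b - 1), true) :=
    hug_vert (i := a) (j := b - 1) (Or.inr (by rwa [sub_add_cancel]))
  have e5 : Hug K ((a - 1, b), false) ((a - 1, b), true) :=
    hug_diag (i := a - 1) (j := b) (Or.inl (by rwa [sub_add_cancel]))
  have e6 : Hug K ((a, b - 1), false) ((a, b - 1), true) :=
    hug_diag (i := a) (j := b - 1) (Or.inr (by rwa [sub_add_cancel]))
  obtain ⟨⟨i, j⟩, c⟩ := s
  cases c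
  · rw [cor_false] at hs
    simp only [Finset.mem_insert, Finset.mem_singleton, Prod.mk.injEq] at hs
    rcases hs with ⟨rfl, rfl⟩ | ⟨rfl, rfl⟩ | ⟨rfl, rfl⟩
    · exact Hug.refl _
    · rw [add_sub_cancel_right] at e5 e3
      exact e3.trans e5.symm
    · rw [add_sub_cancel_right] at e6 e1
      exact e1.trans e6.symm
  · rw [cor_true] at hs
    simp only [Finset.mem_insert, Finset.mem_singleton, Prod.mk.injEq] at hs
    rcases hs with ⟨rfl, rfl⟩ | ⟨rfl, rfl⟩ | ⟨rfl, rfl⟩
    · rwa [add_sub_cancel_right] at e3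
    · rwa [add_sub_cancel_right] at e1
    · rw [add_sub_cancel_right, add_sub_cancel_right] at e4
      rw [add_sub_cancel_right] at e6 e1
      exact (e1.trans e6.symm).trans e4

/-- Two adjacent vertices have a common triangle. -/
theorem common {v w : ℤ × ℤ} (h : Adj v w) : ∃ s : Tri, v ∈ cor s ∧ w ∈ cor s := by
  obtain ⟨a, b⟩ := v
  obtain ⟨c, d⟩ := w
  rw [adj_iff] at h
  dsimp only at h
  rcases h with h | h | h | h | h | h
  · exact ⟨((a, b), false), by simp [cor_false], by simp [cor_false]; omega⟩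
  · exact ⟨((a - 1, b), false), by simp [cor_false], by simp [cor_false]; omega⟩
  · exact ⟨((a, b), false), by simp [cor_false], by simp [cor_false]; omega⟩
  · exact ⟨((a, b - 1), false), by simp [cor_false], by simp [cor_false]; omega⟩
  · exact ⟨((a, b - 1), false), by simp [cor_false], by simp [cor_false]; omega⟩
  · exact ⟨((a - 1, b), false), by simp [cor_false], by simp [cor_false]; omega⟩

/-- A path in `K` gives a dual path which crosses only edges with an end in `K`. -/
theorem hug_conn {a b : ℤ × ℤ} (h : Conn K a b) : Hug K (a, false) (b, false) := by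
  obtain ⟨ha, h⟩ := h
  induction h with
  | refl => exact Hug.refl _
  | tail hab hbc ih =>
    rename_i b' c'
    have hb : b' ∈ K := Conn.right_mem ⟨ha, hab⟩
    obtain ⟨s, h1, h2⟩ := common hbc.1
    exact (ih.trans (hug_star hb h1)).trans (hug_star hbc.2 h2).symm

theorem hug_of_conn {a b : ℤ × ℤ} (h : Conn K a b) {s t : Tri} (ha : a ∈ cor s)
    (hb : b ∈ cor t) : Hug K s t :=
  ((hug_star h.left_mem ha).symm.trans (hug_conn h)).trans (hug_star h.right_mem hb)

end Vale.Agent.P153.R2.PLAN
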