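import Vale.Agent.P153.R2.PLAN.Cut

/-!
P153, block PLAN: parity of paths, separation, types of paths from a crosscut to the walls.
-/

namespace Vale.Agent.P153.R2.PLAN

open Vale.Agent.P153 Vale.Agent.P153.Topo Relation

/-- A cochain which vanishes on `O` and whose sum is `1` exactly around the triangles `s`, `t`. -/
structure Cut (O : Set (ℤ × ℤ)) (s t : Tri) where
  c : ℤ × ℤ → ℤ × ℤ → ZMod 2
  symm : ∀ x y, c x y = c y x
  flat : ∀ r, tsum c r = tind s r + tind t r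
  out : ∀ x ∈ O, ∀ y ∈ O, c x y = 0

/-- If the domain joins a vertex of `s` to a vertex of `t` there is a cut. -/
theorem exists_cut {O : Set (ℤ × ℤ)} {s t : Tri} {a b : ℤ × ℤ} (h : Conn Oᶜ a b)
    (ha : a ∈ cor s) (hb : b ∈ cor t) : Nonempty (Cut O s t) := by
  obtain ⟨c, h1, h2, h3⟩ := hug_of_conn h ha hb
  exact ⟨⟨c, h1, h2, fun x hx y hy => h3 x y (fun h => h hx) fun h => h hy⟩⟩

/-- There is a path from `x` to `y` in `S` along which the sum of `c` is `a`. -/
inductive PJ (c : ℤ × ℤ → ℤ × ℤ → ZMod 2) (S : Set (ℤ × ℤ)) : ℤ × ℤ → ℤ × ℤ → ZMod 2 → Prop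
  | refl {x : ℤ × ℤ} (hx : x ∈ S) : PJ c S x x 0
  | tail {x y z : ℤ × ℤ} {a : ZMod 2} (h : PJ c S x y a) (hyz : Adj y z) (hz : z ∈ S) :
      PJ c S x z (a + c y z)

variable {c d : ℤ × ℤ → ℤ × ℤ → ZMod 2} {S S' : Set (ℤ × ℤ)} {x y z : ℤ × ℤ} {q q' : ZMod 2}

theorem PJ.left (h : PJ c S x y q) : x ∈ S := by
  induction h with
  | refl hx => exact hx
  | tail _ _ _ ih => exact ih

theorem PJ.right (h : PJ c S x y q) : y ∈ S := by
  cases h with
  | refl hx => exact hx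
  | tail _ _ hz => exact hz

theorem PJ.trans (h : PJ c S x y q) (h' : PJ c S y z q') : PJ c S x z (q + q') := by
  induction h' with
  | refl _ => rwa [add_zero]
  | tail _ h2 h3 ih =>
    rw [← add_assoc]
    exact PJ.tail ih h2 h3

theorem PJ.single (hx : x ∈ S) (h : Adj x y) (hy : y ∈ S) : PJ c S x y (c x y) := by
  have := PJ.tail (PJ.refl (c := c) hx) h hy
  rwa [zero_add] at this

theorem PJ.symm (hc : ∀ x y, c x y = c y x) (h : PJ c S x y q) : PJ c S y x q := by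
  induction h with
  | refl hx => exact PJ.refl hx
  | tail h1 h2 h3 ih =>
    rw [add_comm, hc]
    exact (PJ.single h3 (adj_symm h2) h1.right).trans ih

theorem PJ.mono (h : PJ c S x y q) (hS : S ⊆ S') : PJ c S' x y q := by
  induction h with
  | refl hx => exact PJ.refl (hS hx)
  | tail _ h2 h3 ih => exact PJ.tail ih h2 (hS h3)

theorem PJ.conn (h : PJ c S x y q) : Conn S x y := by
  induction h with
  | refl hx => exact Conn.refl hx
  | tail h1 h2 h3 ih => exact ih.trans (Conn.of_adj h1.right h3 h2)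

theorem PJ.of_conn (h : Conn S x y) (c : ℤ × ℤ → ℤ × ℤ → ZMod 2) : ∃ q, PJ c S x y q := by
  obtain ⟨hx, h⟩ := h
  induction h with
  | refl => exact ⟨0, PJ.refl hx⟩
  | tail _ hbc ih =>
    obtain ⟨q, hq⟩ := ih
    exact ⟨_, PJ.tail hq hbc.1 hbc.2⟩

theorem PJ.congr (h : PJ c S x y q) (hcd : ∀ u ∈ S, ∀ v ∈ S, c u v = d u v) :
    PJ d S x y q := by
  induction h with
  | refl hx => exact PJ.refl hx
  | tail h1 h2 h3 ih =>
    rw [hcd _ h1.right _ h3]
    exact PJ.tail ih h2 h3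

theorem PJ.zero (h : PJ c S x y q) (hc : ∀ u ∈ S, ∀ v ∈ S, c u v = 0) : q = 0 := by
  induction h with
  | refl hx => rfl
  | tail h1 h2 h3 ih => rw [ih, hc _ h1.right _ h3, add_zero]

theorem PJ.pot (h : PJ c S x y q) {U : ℤ × ℤ → ZMod 2}
    (hU : ∀ u v, Adj u v → c u v = U u + U v) : q = U x + U y := by
  induction h with
  | refl hx => exact (z2 _).symm
  | tail h1 h2 h3 ih =>
    rename_i y' z' a'
    rw [ih, hU _ _ h2]
    have := z2 (U y')
    linear_combination this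

variable {O : Set (ℤ × ℤ)} {s t : Tri}

/-- **Separation.** A path from `O` to `O` off `K` has parity `0` if `K` (disjoint from `O`) joins
the triangles `s` and `t`. -/
theorem Cut.sep (C : Cut O s t) (hO : ∀ x ∈ O, ∀ y ∈ O, Conn O x y) {K : Set (ℤ × ℤ)}
    (hKO : Disjoint K O) {a b : ℤ × ℤ} (hK : Conn K a b) (ha : a ∈ cor s) (hb : b ∈ cor t)
    (hx : x ∈ O) (hy : y ∈ O) (h : PJ C.c Kᶜ x y q) : q = 0 := by
  obtain ⟨d, d1, d2, d3⟩ := hug_of_conn hK ha hb
  set e : ℤ × ℤ → ℤ × ℤ → ZMod 2 := fun x y => C.c x y + d x y with he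
  have het : ∀ r, tsum e r = 0 := by
    intro r
    rw [he, tsum_add, C.flat, d2]
    exact z2 _
  obtain ⟨U, hU⟩ := exists_cob e
    (fun x y => by
      show C.c x y + d x y = C.c y x + d y x
      rw [C.symm x y, d1 x y])
    (fun i j => het ((i, j), false)) (fun i j => het ((i, j), true))
  have e1 : PJ e Kᶜ x y q := by
    refine h.congr fun u hu v hv => ?_
    show C.c u v = C.c u v + d u v
    rw [d3 u v hu hv, add_zero]
  obtain ⟨q', hq'⟩ := PJ.of_conn (hO y hy x hx) e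
  have e2 : q' = 0 := by
    refine hq'.zero fun u hu v hv => ?_
    show C.c u v + d u v = 0
    rw [C.out u hu v hv, d3 u v (fun h => Set.disjoint_left.1 hKO h hu)
      (fun h => Set.disjoint_left.1 hKO h hv), add_zero]
  have e3 := e1.pot hU
  have e4 := hq'.pot hU
  rw [e3, add_comm, ← e4, e2]

/-- Sum of a cochain along the first `k` steps of a walk. -/
def pre (c : ℤ × ℤ → ℤ × ℤ → ZMod 2) (w : ℕ → ℤ × ℤ) (k : ℕ) : ZMod 2 :=
  ∑ i ∈ Finset.range k, c (w i) (w (i + 1))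

theorem pre_zero (c : ℤ × ℤ → ℤ × ℤ → ZMod 2) (w : ℕ → ℤ × ℤ) : pre c w 0 = 0 := rfl

theorem pre_succ (c : ℤ × ℤ → ℤ × ℤ → ZMod 2) (w : ℕ → ℤ × ℤ) (k : ℕ) :
    pre c w (k + 1) = pre c w k + c (w k) (w (k + 1)) := Finset.sum_range_succ _ _

/-- The vertex `k` of the walk `w` (of length `m`) is joined to `O` off `K` by a path which
together with the second part of the walk has parity one. -/
def Lft (c : ℤ × ℤ → ℤ × ℤ → ZMod 2) (O : Set (ℤ × ℤ)) (w : ℕ → ℤ × ℤ) (m : ℕ)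
    (K : Set (ℤ × ℤ)) (k : ℕ) : Prop :=
  ∃ y ∈ O, ∃ q, PJ c Kᶜ (w k) y q ∧ q + (pre c w m + pre c w k) = 1

/-- The vertex `k` of the walk `w` is joined to `O` off `K` by a path which together with the
first part of the walk has parity one. -/
def Rgt (c : ℤ × ℤ → ℤ × ℤ → ZMod 2) (O : Set (ℤ × ℤ)) (w : ℕ → ℤ × ℤ)
    (K : Set (ℤ × ℤ)) (k : ℕ) : Prop :=
  ∃ y ∈ O, ∃ q, PJ c Kᶜ (w k) y q ∧ q + pre c w k = 1

variable {w : ℕ → ℤ × ℤ} {m k : ℕ} {K L : Set (ℤ × ℤ)}

theorem Lft.mono (h : Lft c O w m K k) (hKL : L ⊆ K) : Lft c O w m L k := by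
  obtain ⟨y, hy, q, h1, h2⟩ := h
  exact ⟨y, hy, q, h1.mono (Set.compl_subset_compl.2 hKL), h2⟩

theorem Rgt.mono (h : Rgt c O w K k) (hKL : L ⊆ K) : Rgt c O w L k := by
  obtain ⟨y, hy, q, h1, h2⟩ := h
  exact ⟨y, hy, q, h1.mono (Set.compl_subset_compl.2 hKL), h2⟩

/-- At the start of the crosscut every connection is of the first type. -/
theorem lft_zero (h0 : w 0 ∈ O) (h1 : pre c w m = 1) (hK : w 0 ∉ K) : Lft c O w m K 0 :=
  ⟨w 0, h0, 0, PJ.refl hK, by rw [h1, pre_zero, add_zero, zero_add]⟩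

/-- At the end of the crosscut every connection is of the second type. -/
theorem rgt_end (hm : w m ∈ O) (h1 : pre c w m = 1) (hK : w m ∉ K) : Rgt c O w K m :=
  ⟨w m, hm, 0, PJ.refl hK, by rw [h1, zero_add]⟩

/-- **Types.** A vertex of the crosscut joined to `O` off `K` is joined in one of the two ways. -/
theorem lft_or_rgt (h1 : pre c w m = 1) (hy : y ∈ O) (h : Conn Kᶜ (w k) y) :
    Lft c O w m K k ∨ Rgt c O w K k := by
  obtain ⟨q, hq⟩ := PJ.of_conn h c
  have key : ∀ a b : ZMod 2, a + (1 + b) = 1 ∨ a + b = 1 := by decide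
  rcases key q (pre c w k) with h2 | h2
  · exact Or.inl ⟨y, hy, q, hq, by rw [h1]; exact h2⟩
  · exact Or.inr ⟨y, hy, q, hq, h2⟩

/-- **Gluing**: same vertex. -/
theorem Cut.glue (C : Cut O s t) (hO : ∀ x ∈ O, ∀ y ∈ O, Conn O x y)
    (hKO : Disjoint K O) (h1 : pre C.c w m = 1) (hl : Lft C.c O w m K k)
    (hr : Rgt C.c O w K k) {a b : ℤ × ℤ} (ha : a ∈ cor s) (hb : b ∈ cor t) :
    ¬ Conn K a b := by
  intro hK
  obtain ⟨y, hy, q, h2, h3⟩ := hl
  obtain ⟨y', hy', q', h4, h5⟩ := hr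
  have := C.sep hO hKO hK ha hb hy hy' ((h2.symm C.symm).trans h4)
  rw [h1] at h3
  have key : ∀ a b p : ZMod 2, a + (1 + p) = 1 → b + p = 1 → a + b = 0 → False := by decide
  exact key _ _ _ h3 h5 this

/-- **Gluing**: adjacent vertices. -/
theorem Cut.glue' (C : Cut O s t) (hO : ∀ x ∈ O, ∀ y ∈ O, Conn O x y)
    (hKO : Disjoint K O) (h1 : pre C.c w m = 1) (hk : Adj (w k) (w (k + 1)))
    (hl : Lft C.c O w m K k) (hr : Rgt C.c O w K (k + 1)) {a b : ℤ × ℤ} (ha : a ∈ cor s)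
    (hb : b ∈ cor t) : ¬ Conn K a b := by
  intro hK
  obtain ⟨y, hy, q, h2, h3⟩ := hl
  obtain ⟨y', hy', q', h4, h5⟩ := hr
  have := C.sep hO hKO hK ha hb hy hy'
    (((h2.symm C.symm).trans (PJ.single h2.left hk h4.left)).trans h4)
  rw [h1] at h3
  rw [pre_succ] at h5
  have key : ∀ a b p e : ZMod 2, a + (1 + p) = 1 → b + (p + e) = 1 → a + e + b = 0 → False := by
    decide
  exact key _ _ _ _ h3 h5 this

/-- A walk from `O` to `O` of parity one contains a crosscut of parity one. -/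
theorem exists_sub (n : ℕ) :
    ∀ i, w i ∈ O → w (i + n) ∈ O → pre c w (i + n) + pre c w i = 1 →
      ∃ k l, i ≤ k ∧ k < l ∧ l ≤ i + n ∧ w k ∈ O ∧ w l ∈ O ∧ (∀ j, k < j → j < l → w j ∉ O) ∧
        pre c w l + pre c w k = 1 := by
  classical
  induction n using Nat.strong_induction_on with
  | _ n ih =>
    intro i h0 hn hs
    have hn0 : 0 < n := by
      rcases Nat.eq_zero_or_pos n with rfl | h
      · rw [add_zero, z2] at hs
        exact absurd hs (by decide)
      · exact h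
    have hex : ∃ j, 0 < j ∧ w (i + j) ∈ O := ⟨n, hn0, hn⟩
    obtain ⟨hj0, hjO⟩ := Nat.find_spec hex
    set j := Nat.find hex with hj
    have hjn : j ≤ n := Nat.find_min' hex ⟨hn0, hn⟩
    have hmin : ∀ l, 0 < l → l < j → w (i + l) ∉ O := fun l h1 h2 h3 =>
      Nat.find_min hex h2 ⟨h1, h3⟩
    have key : ∀ a b p : ZMod 2, a + b = 1 → p + b = 1 ∨ a + p = 1 := by decide
    rcases key _ _ (pre c w (i + j)) hs with h | h
    · refine ⟨i, i + j, le_rfl, by omega, by omega, h0, hjO, fun l h1 h2 => ?_, h⟩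
      have := hmin (l - i) (by omega) (by omega)
      rwa [show i + (l - i) = l by omega] at this
    · obtain ⟨k, l, h1, h2, h3, h4⟩ := ih (n - j) (by omega) (i + j) hjO
        (by rwa [show i + j + (n - j) = i + n by omega])
        (by rwa [show i + j + (n - j) = i + n by omega])
      exact ⟨k, l, by omega, h2, by omega, h4⟩

end Vale.Agent.P153.R2.PLAN
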