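import Vale.Agent.P153.R2.PLAN.Par

/-!
P153, block PLAN: the boundary of a box is a closed walk; its parity; existence of crosscuts.
-/

namespace Vale.Agent.P153.R2.PLAN

open Vale.Agent.P153 Vale.Agent.P153.Topo Relation

/-- The boundary of the box. -/
def Ring (p : ℤ × ℤ) (r : ℤ) : Set (ℤ × ℤ) :=
  {z | |z.1 - p.1| ≤ r ∧ |z.2 - p.2| ≤ r ∧ (|z.1 - p.1| = r ∨ |z.2 - p.2| = r)}

/-- One round on the boundary of `[a, a + n] × [b, b + n]`. -/
def rnd (a b : ℤ) (n k : ℕ) : ℤ × ℤ :=
  if k < n then (a + k, b)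
  else if k < 2 * n then (a + n, b + (k - n))
  else if k < 3 * n then (a + (3 * n - k), b + n)
  else (a, b + (4 * n - k))

theorem rnd_step {a b : ℤ} {n k : ℕ} (_hk : k < 4 * n) :
    Adj (rnd a b n k) (rnd a b n (k + 1)) := by
  unfold rnd
  split_ifs <;> rw [adj_iff] <;> dsimp only <;> push_cast <;> omega

theorem rnd_end (a b : ℤ) {n : ℕ} (hn : 0 < n) : rnd a b n (4 * n) = rnd a b n 0 := by
  unfold rnd
  rw [if_neg (by omega), if_neg (by omega), if_neg (by omega), if_pos hn]
  push_cast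
  simp

/-- Two rounds. -/
def rnd2 (a b : ℤ) (n k : ℕ) : ℤ × ℤ := if k < 4 * n then rnd a b n k else rnd a b n (k - 4 * n)

theorem rnd2_step {a b : ℤ} {n k : ℕ} (hn : 0 < n) (hk : k < 8 * n) :
    Adj (rnd2 a b n k) (rnd2 a b n (k + 1)) := by
  unfold rnd2
  by_cases h1 : k + 1 < 4 * n
  · rw [if_pos (by omega), if_pos h1]
    exact rnd_step (by omega)
  · by_cases h2 : k < 4 * n
    · rw [if_pos h2, if_neg h1]
      have e : k + 1 = 4 * n := by omega
      have := rnd_step (a := a) (b := b) h2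
      rw [e, rnd_end a b hn] at this
      rw [e, Nat.sub_self]
      exact this
    · rw [if_neg h2, if_neg h1]
      rw [show k + 1 - 4 * n = (k - 4 * n) + 1 by omega]
      exact rnd_step (by omega)

theorem tele (f : ℕ → ZMod 2) (n : ℕ) :
    ∑ i ∈ Finset.range n, (f i + f (i + 1)) = f 0 + f n := by
  induction n with
  | zero => rw [Finset.sum_range_zero, z2]
  | succ n ih =>
    rw [Finset.sum_range_succ, ih]
    have := z2 (f n)
    linear_combination this

/-- Green's formula for a box: the sum over the triangles of the box is the sum over the four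
sides. -/
theorem green (c : ℤ × ℤ → ℤ × ℤ → ZMod 2) (a b : ℤ) (n m : ℕ) :
    ∑ i ∈ Finset.range n, ∑ j ∈ Finset.range m,
      (tsum c ((a + i, b + j), false) + tsum c ((a + i, b + j), true)) =
    ∑ i ∈ Finset.range n, (c (a + i, b) (a + i + 1, b) + c (a + i, b + m) (a + i + 1, b + m)) +
    ∑ j ∈ Finset.range m, (c (a, b + j) (a, b + j + 1) + c (a + n, b + j) (a + n, b + j + 1)) := by
  have e1 : ∀ i j : ℕ, tsum c ((a + i, b + j), false) + tsum c ((a + i, b + j), true) =
      (c (a + i, b + j) (a + i + 1, b + j) + c (a + i, b + j + 1) (a + i + 1, b + j + 1)) +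
      (c (a + i, b + j) (a + i, b + j + 1) + c (a + i + 1, b + j) (a + i + 1, b + j + 1)) := by
    intro i j
    simp only [tsum]
    have := z2 (c (a + i + 1, b + j) (a + i, b + j + 1))
    linear_combination this
  have e2 : ∀ i : ℕ, ∑ j ∈ Finset.range m,
      (c (a + i, b + j) (a + i + 1, b + j) + c (a + i, b + j + 1) (a + i + 1, b + j + 1)) =
      c (a + i, b) (a + i + 1, b) + c (a + i, b + m) (a + i + 1, b + m) := by
    intro i
    have := tele (fun j => c (a + i, b + j) (a + i + 1, b + j)) m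
    push_cast at this
    simp only [add_zero, ← add_assoc] at this
    exact this
  have e3 : ∀ j : ℕ, ∑ i ∈ Finset.range n,
      (c (a + i, b + j) (a + i, b + j + 1) + c (a + i + 1, b + j) (a + i + 1, b + j + 1)) =
      c (a, b + j) (a, b + j + 1) + c (a + n, b + j) (a + n, b + j + 1) := by
    intro j
    have := tele (fun i => c (a + i, b + j) (a + i, b + j + 1)) n
    push_cast at this
    simp only [add_zero, ← add_assoc] at this
    exact this
  simp only [e1, Finset.sum_add_distrib (f := fun j : ℕ => _ + _), Finset.sum_add_distrib]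
  have e4 : ∀ i : ℕ, ∑ j ∈ Finset.range m, c (a + i, b + j) (a + i + 1, b + j) +
      ∑ j ∈ Finset.range m, c (a + i, b + j + 1) (a + i + 1, b + j + 1) =
      c (a + i, b) (a + i + 1, b) + c (a + i, b + m) (a + i + 1, b + m) := by
    intro i
    rw [← e2 i, Finset.sum_add_distrib]
  have e5 : ∀ j : ℕ, ∑ i ∈ Finset.range n, c (a + i, b + j) (a + i, b + j + 1) +
      ∑ i ∈ Finset.range n, c (a + i + 1, b + j) (a + i + 1, b + j + 1) =
      c (a, b + j) (a, b + j + 1) + c (a + n, b + j) (a + n, b + j + 1) := by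
    intro j
    rw [← e3 j, Finset.sum_add_distrib]
  have s1 := Finset.sum_congr (rfl : Finset.range n = _) fun i _ => e4 i
  have s2 := Finset.sum_congr (rfl : Finset.range m = _) fun j _ => e5 j
  simp only [Finset.sum_add_distrib] at s1 s2
  rw [Finset.sum_comm (s := Finset.range m) (t := Finset.range n)] at s2
  rw [Finset.sum_comm (f := fun (j : ℕ) (i : ℕ) => c (a + i + 1, b + j) (a + i + 1, b + j + 1))] at s2
  linear_combination s1 + s2

/-- The parity of one round. -/
theorem pre_rnd (c : ℤ × ℤ → ℤ × ℤ → ZMod 2) (hc : ∀ x y, c x y = c y x) (a b : ℤ) {n : ℕ}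
    (hn : 0 < n) : pre c (rnd a b n) (4 * n) =
    ∑ i ∈ Finset.range n, (c (a + i, b) (a + i + 1, b) + c (a + i, b + n) (a + i + 1, b + n)) +
    ∑ j ∈ Finset.range n, (c (a, b + j) (a, b + j + 1) + c (a + n, b + j) (a + n, b + j + 1)) := by
  have e : 4 * n = n + n + n + n := by ring
  rw [pre, e, Finset.sum_range_add, Finset.sum_range_add, Finset.sum_range_add]
  have s1 : ∑ k ∈ Finset.range n, c (rnd a b n k) (rnd a b n (k + 1)) =
      ∑ i ∈ Finset.range n, c (a + i, b) (a + i + 1, b) := by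
    refine Finset.sum_congr rfl fun i hi => ?_
    rw [Finset.mem_range] at hi
    have e1 : rnd a b n i = (a + i, b) := by unfold rnd; rw [if_pos hi]
    have e2 : rnd a b n (i + 1) = (a + i + 1, b) := by
      unfold rnd
      split_ifs <;> refine Prod.ext ?_ ?_ <;> dsimp only <;> push_cast <;> omega
    rw [e1, e2]
  have s2 : ∑ k ∈ Finset.range n, c (rnd a b n (n + k)) (rnd a b n (n + k + 1)) =
      ∑ i ∈ Finset.range n, c (a + n, b + i) (a + n, b + i + 1) := by
    refine Finset.sum_congr rfl fun i hi => ?_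
    rw [Finset.mem_range] at hi
    have e1 : rnd a b n (n + i) = (a + n, b + i) := by
      unfold rnd
      split_ifs <;> refine Prod.ext ?_ ?_ <;> dsimp only <;> push_cast <;> omega
    have e2 : rnd a b n (n + i + 1) = (a + n, b + i + 1) := by
      unfold rnd
      split_ifs <;> refine Prod.ext ?_ ?_ <;> dsimp only <;> push_cast <;> omega
    rw [e1, e2]
  have s3 : ∑ k ∈ Finset.range n, c (rnd a b n (n + n + k)) (rnd a b n (n + n + k + 1)) =
      ∑ i ∈ Finset.range n, c (a + i, b + n) (a + i + 1, b + n) := by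
    rw [← Finset.sum_range_reflect]
    refine Finset.sum_congr rfl fun i hi => ?_
    rw [Finset.mem_range] at hi
    have e1 : rnd a b n (n + n + (n - 1 - i)) = (a + i + 1, b + n) := by
      obtain ⟨k, hk⟩ : ∃ k, n = i + 1 + k := ⟨n - 1 - i, by omega⟩
      have hk' : n - 1 - i = k := by omega
      rw [hk']
      unfold rnd
      split_ifs <;> refine Prod.ext ?_ ?_ <;> dsimp only <;> push_cast <;> omega
    have e2 : rnd a b n (n + n + (n - 1 - i) + 1) = (a + i, b + n) := by
      obtain ⟨k, hk⟩ : ∃ k, n = i + 1 + k := ⟨n - 1 - i, by omega⟩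
      have hk' : n - 1 - i = k := by omega
      rw [hk']
      unfold rnd
      split_ifs <;> refine Prod.ext ?_ ?_ <;> dsimp only <;> push_cast <;> omega
    rw [e1, e2, hc]
  have s4 : ∑ k ∈ Finset.range n, c (rnd a b n (n + n + n + k)) (rnd a b n (n + n + n + k + 1)) =
      ∑ i ∈ Finset.range n, c (a, b + i) (a, b + i + 1) := by
    rw [← Finset.sum_range_reflect]
    refine Finset.sum_congr rfl fun i hi => ?_
    rw [Finset.mem_range] at hi
    have e1 : rnd a b n (n + n + n + (n - 1 - i)) = (a, b + i + 1) := by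
      obtain ⟨k, hk⟩ : ∃ k, n = i + 1 + k := ⟨n - 1 - i, by omega⟩
      have hk' : n - 1 - i = k := by omega
      rw [hk']
      unfold rnd
      split_ifs <;> refine Prod.ext ?_ ?_ <;> dsimp only <;> push_cast <;> omega
    have e2 : rnd a b n (n + n + n + (n - 1 - i) + 1) = (a, b + i) := by
      obtain ⟨k, hk⟩ : ∃ k, n = i + 1 + k := ⟨n - 1 - i, by omega⟩
      have hk' : n - 1 - i = k := by omega
      rw [hk']
      unfold rnd
      split_ifs <;> refine Prod.ext ?_ ?_ <;> dsimp only <;> push_cast <;> omega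
    rw [e1, e2, hc]
  rw [s1, s2, s3, s4, Finset.sum_add_distrib, Finset.sum_add_distrib]
  ring

theorem sum_tind (s : Tri) (a b : ℤ) (n m : ℕ) :
    ∑ i ∈ Finset.range n, ∑ j ∈ Finset.range m,
      (tind s ((a + i, b + j), false) + tind s ((a + i, b + j), true)) =
    if a ≤ s.1.1 ∧ s.1.1 < a + n ∧ b ≤ s.1.2 ∧ s.1.2 < b + m then 1 else 0 := by
  obtain ⟨⟨p, q⟩, e⟩ := s
  have key : ∀ i j : ℕ, tind ((p, q), e) ((a + i, b + j), false) +
      tind ((p, q), e) ((a + i, b + j), true) = if a + i = p ∧ b + j = q then 1 else 0 := by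
    intro i j
    cases e
    · rw [tind_val, tind_zero (by decide), add_zero]
    · rw [tind_val, tind_zero (by decide), zero_add]
  simp only [key]
  split_ifs with h
  · obtain ⟨h1, h2, h3, h4⟩ := h
    rw [Finset.sum_eq_single (p - a).toNat, Finset.sum_eq_single (q - b).toNat]
    · rw [if_pos]
      omega
    · intro j _ hj
      rw [if_neg]
      omega
    · intro hj
      rw [Finset.mem_range] at hj
      omega
    · intro i _ hi
      refine Finset.sum_eq_zero fun j _ => ?_
      rw [if_neg]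
      omega
    · intro hi
      rw [Finset.mem_range] at hi
      omega
  · refine Finset.sum_eq_zero fun i hi => Finset.sum_eq_zero fun j hj => ?_
    rw [Finset.mem_range] at hi hj
    rw [if_neg]
    omega

variable {O : Set (ℤ × ℤ)} {s t : Tri}

theorem Cut.round (C : Cut O s t) {a b : ℤ} {n : ℕ} (hn : 0 < n)
    (hs : a ≤ s.1.1 ∧ s.1.1 < a + n ∧ b ≤ s.1.2 ∧ s.1.2 < b + n)
    (ht : ¬ (a ≤ t.1.1 ∧ t.1.1 < a + n ∧ b ≤ t.1.2 ∧ t.1.2 < b + n)) :
    pre C.c (rnd a b n) (4 * n) = 1 := by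
  rw [pre_rnd C.c C.symm a b hn, ← green]
  have e : ∀ i j : ℕ, tsum C.c ((a + i, b + j), false) + tsum C.c ((a + i, b + j), true) =
      (tind s ((a + i, b + j), false) + tind s ((a + i, b + j), true)) +
      (tind t ((a + i, b + j), false) + tind t ((a + i, b + j), true)) := by
    intro i j
    rw [C.flat, C.flat]
    ring
  simp only [e]
  have e2 : ∀ i : ℕ, ∑ j ∈ Finset.range n,
      ((tind s ((a + i, b + j), false) + tind s ((a + i, b + j), true)) +
      (tind t ((a + i, b + j), false) + tind t ((a + i, b + j), true))) =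
      ∑ j ∈ Finset.range n, (tind s ((a + i, b + j), false) + tind s ((a + i, b + j), true)) +
      ∑ j ∈ Finset.range n, (tind t ((a + i, b + j), false) + tind t ((a + i, b + j), true)) := by
    intro i
    rw [← Finset.sum_add_distrib]
  simp only [e2]
  rw [Finset.sum_add_distrib (s := Finset.range n), sum_tind, sum_tind, if_pos hs, if_neg ht,
    add_zero]

theorem rnd2_low {a b : ℤ} {n k : ℕ} (hn : 0 < n) (hk : k ≤ 4 * n) :
    rnd2 a b n k = rnd a b n k := by
  unfold rnd2
  split_ifs with h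
  · rfl
  · have e : k = 4 * n := by omega
    rw [e, Nat.sub_self, rnd_end a b hn]

theorem rnd2_high {a b : ℤ} {n k : ℕ} : rnd2 a b n (k + 4 * n) = rnd a b n k := by
  unfold rnd2
  rw [if_neg (by omega), Nat.add_sub_cancel]

theorem pre_rnd2 (c : ℤ × ℤ → ℤ × ℤ → ZMod 2) {a b : ℤ} {n : ℕ} (hn : 0 < n) (k : ℕ)
    (hk : k ≤ 4 * n) : pre c (rnd2 a b n) (k + 4 * n) + pre c (rnd2 a b n) k =
      pre c (rnd a b n) (4 * n) := by
  induction k with
  | zero =>
    rw [pre_zero, add_zero, zero_add]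
    unfold pre
    refine Finset.sum_congr rfl fun i hi => ?_
    rw [Finset.mem_range] at hi
    rw [rnd2_low hn (by omega), rnd2_low hn (by omega)]
  | succ k ih =>
    have h := ih (by omega)
    rw [show k + 1 + 4 * n = (k + 4 * n) + 1 by omega, pre_succ, pre_succ,
      show k + 4 * n + 1 = (k + 1) + 4 * n by omega, rnd2_high, rnd2_high,
      rnd2_low hn (by omega), rnd2_low hn hk]
    have := z2 (c (rnd a b n k) (rnd a b n (k + 1)))
    linear_combination h + this

theorem pre_shift (c : ℤ × ℤ → ℤ × ℤ → ZMod 2) (w : ℕ → ℤ × ℤ) (k m : ℕ) :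
    pre c w (k + m) = pre c w k + pre c (fun j => w (k + j)) m := by
  unfold pre
  rw [Finset.sum_range_add]
  rfl

theorem rnd_mem {p : ℤ × ℤ} {r k : ℕ} (_hr : 0 < r) (hk : k ≤ 4 * (2 * r)) :
    rnd (p.1 - r) (p.2 - r) (2 * r) k ∈ Ring p r := by
  obtain ⟨p1, p2⟩ := p
  unfold rnd Ring
  rw [Set.mem_ofPred_eq]
  split_ifs <;> dsimp only <;> push_cast <;> simp only [abs_le] <;> refine ⟨by omega, by omega, ?_⟩
  · right
    rw [abs_of_nonpos (by omega)]
    omega
  · left
    rw [abs_of_nonneg (by omega)]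
    omega
  · right
    rw [abs_of_nonneg (by omega)]
    omega
  · left
    rw [abs_of_nonpos (by omega)]
    omega

/-- Every vertex of the boundary of the box is on the round. -/
theorem exists_rnd {p z : ℤ × ℤ} {r : ℕ} (_hr : 0 < r) (hz : z ∈ Ring p r) :
    ∃ k, k < 4 * (2 * r) ∧ rnd (p.1 - r) (p.2 - r) (2 * r) k = z := by
  obtain ⟨p1, p2⟩ := p
  obtain ⟨z1, z2⟩ := z
  unfold Ring at hz
  rw [Set.mem_ofPred_eq] at hz
  simp only [abs_le] at hz
  obtain ⟨⟨h1, h2⟩, ⟨h3, h4⟩, h5⟩ := hz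
  have h6 : z1 - p1 = r ∨ z1 - p1 = -r ∨ z2 - p2 = r ∨ z2 - p2 = -r := by
    rcases h5 with h | h
    · rcases abs_eq (a := z1 - p1) (b := (r : ℤ)) (by omega) |>.1 h with h | h
      · exact Or.inl h
      · exact Or.inr (Or.inl h)
    · rcases abs_eq (a := z2 - p2) (b := (r : ℤ)) (by omega) |>.1 h with h | h
      · exact Or.inr (Or.inr (Or.inl h))
      · exact Or.inr (Or.inr (Or.inr h))
  by_cases c1 : z2 - p2 = -r ∧ z1 - p1 < r
  · refine ⟨(z1 - (p1 - r)).toNat, by omega, ?_⟩
    unfold rnd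
    split_ifs <;> refine Prod.ext ?_ ?_ <;> dsimp only <;> push_cast <;> omega
  by_cases c2 : z1 - p1 = r ∧ z2 - p2 < r
  · refine ⟨(z2 - (p2 - r)).toNat + 2 * r, by omega, ?_⟩
    unfold rnd
    split_ifs <;> refine Prod.ext ?_ ?_ <;> dsimp only <;> push_cast <;> omega
  by_cases c3 : z2 - p2 = r ∧ - r < z1 - p1
  · refine ⟨(p1 + r - z1).toNat + 4 * r, by omega, ?_⟩
    unfold rnd
    split_ifs <;> refine Prod.ext ?_ ?_ <;> dsimp only <;> push_cast <;> omega
  have c4 : z1 - p1 = -r := by omega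
  refine ⟨(p2 + r - z2).toNat + 6 * r, by omega, ?_⟩
  unfold rnd
  split_ifs <;> refine Prod.ext ?_ ?_ <;> dsimp only <;> push_cast <;> omega

/-- A crosscut of parity one inside `H`: a path of `H` from `O` to `O`, with no other vertex in
`O`. -/
structure Xcut (C : Cut O s t) (H : Set (ℤ × ℤ)) (w : ℕ → ℤ × ℤ) (m : ℕ) : Prop where
  pos : 0 < m
  st : w 0 ∈ O
  en : w m ∈ O
  step : ∀ k < m, Adj (w k) (w (k + 1))
  mem : ∀ k ≤ m, w k ∈ H
  int : ∀ k, 0 < k → k < m → w k ∉ O
  par : pre C.c w m = 1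

/-- **Existence of a crosscut** on the boundary of a box which contains `s`, does not contain `t`
and whose boundary meets `O`. -/
theorem exists_crosscut (C : Cut O s t) {p : ℤ × ℤ} {r : ℕ} (hr : 0 < r)
    (hs : ∀ v ∈ cor s, v ∈ bx p r) (ht : ¬ ∀ v ∈ cor t, v ∈ bx p r)
    (hO : ∃ z ∈ Ring p r, z ∈ O) : ∃ w m, Xcut C (Ring p r) w m := by
  obtain ⟨z, hz, hzO⟩ := hO
  obtain ⟨k₀, hk₀, rfl⟩ := exists_rnd hr hz
  have hs' : p.1 - r ≤ s.1.1 ∧ s.1.1 < p.1 - r + (2 * r : ℕ) ∧ p.2 - r ≤ s.1.2 ∧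
      s.1.2 < p.2 - r + (2 * r : ℕ) := by
    obtain ⟨⟨i, j⟩, b⟩ := s
    cases b
    · simp only [cor_false, Finset.mem_insert, Finset.mem_singleton, forall_eq_or_imp,
        forall_eq, bx, Set.mem_ofPred_eq, abs_le] at hs
      push_cast
      omega
    · simp only [cor_true, Finset.mem_insert, Finset.mem_singleton, forall_eq_or_imp,
        forall_eq, bx, Set.mem_ofPred_eq, abs_le] at hs
      push_cast
      omega
  have ht' : ¬ (p.1 - r ≤ t.1.1 ∧ t.1.1 < p.1 - r + (2 * r : ℕ) ∧ p.2 - r ≤ t.1.2 ∧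
      t.1.2 < p.2 - r + (2 * r : ℕ)) := by
    intro h
    apply ht
    obtain ⟨⟨i, j⟩, b⟩ := t
    push_cast at h
    cases b
    · simp only [cor_false, Finset.mem_insert, Finset.mem_singleton, forall_eq_or_imp,
        forall_eq, bx, Set.mem_ofPred_eq, abs_le]
      omega
    · simp only [cor_true, Finset.mem_insert, Finset.mem_singleton, forall_eq_or_imp,
        forall_eq, bx, Set.mem_ofPred_eq, abs_le]
      omega
  have hn : 0 < 2 * r := by omega
  have h1 := C.round hn hs' ht'
  rw [← pre_rnd2 C.c hn k₀ (by omega)] at h1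
  set W := rnd2 (p.1 - r) (p.2 - r) (2 * r) with hW
  have hWm : ∀ k ≤ 2 * (4 * (2 * r)), W k ∈ Ring p r := by
    intro k hk
    by_cases h : k ≤ 4 * (2 * r)
    · rw [hW, rnd2_low hn h]
      exact rnd_mem hr h
    · rw [hW, show k = (k - 4 * (2 * r)) + 4 * (2 * r) by omega, rnd2_high]
      exact rnd_mem hr (by omega)
  obtain ⟨k, l, a1, a2, a3, a4, a5, a6, a7⟩ := exists_sub (O := O) (c := C.c) (w := W)
    (4 * (2 * r)) k₀ (by rw [hW, rnd2_low hn (by omega)]; exact hzO)
    (by rw [hW, rnd2_high]; exact hzO) h1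
  refine ⟨fun j => W (k + j), l - k, by omega, a4, ?_, fun j hj => ?_, fun j hj => ?_,
    fun j h2 h3 => ?_, ?_⟩
  · show W (k + (l - k)) ∈ O
    rwa [show k + (l - k) = l by omega]
  · exact rnd2_step hn (by omega)
  · exact hWm _ (by omega)
  · exact a6 _ (by omega) (by omega)
  · have := pre_shift C.c W k (l - k)
    rw [show k + (l - k) = l by omega] at this
    rw [this] at a7
    have := z2 (pre C.c W k)
    linear_combination a7 - this

end Vale.Agent.P153.R2.PLAN
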