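import Vale.Agent.P153.R2.PLAN.Mean

/-!
P153-R2: (1) from smeared to pointwise arrival; (2) the local lower bound: if the data are at least
`a` then the heights on a finite set `P` are at least `a + 2` with probability at least
`(1 / 192) ^ |P|`.
-/

namespace Vale.Agent.P153.R2.PLAN

open Set Relation
open Vale.Agent.P153 Vale.Agent.P153.Topo

variable {V W Z T : Set Pt} {I J : Pt → Set ℤ} {a c : ℤ} {v w : Pt}

/-- `v` is joined to the walls off the cluster of `Z` in `{h ≤ a}`. -/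
def Arr (V Z : Set Pt) (a : ℤ) (v : Pt) : Set Hg := {h | ∃ y, y ∉ V ∧ Conn (Kd V Z a h)ᶜ v y}

/-- The cluster misses `T`. -/
def Miss (V Z : Set Pt) (a : ℤ) (T : Set Pt) : Set Hg := {h | Disjoint (Kd V Z a h) T}

theorem Arr.upper : IsUpperSet (Arr V Z a v) := by
  rintro g h hgh ⟨y, hy, hc⟩
  exact ⟨y, hy, hc.mono (compl_subset_compl.2 (Kd_anti hgh))⟩

theorem Miss.upper : IsUpperSet (Miss V Z a T) := fun _ _ hgh hg => hg.mono_left (Kd_anti hgh)

theorem Arr.move (hT : Conn T v w) {h : Hg} (h1 : h ∈ Arr V Z a v) (h2 : h ∈ Miss V Z a T) :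
    h ∈ Arr V Z a w := by
  obtain ⟨y, hy, hc⟩ := h1
  exact ⟨y, hy, (hT.symm.mono fun x hx hx' => Set.disjoint_left.1 h2 hx' hx).trans hc⟩

/-- From smeared to pointwise. -/
theorem star (ha : Odd a) (hd : Dat V I) (hne : (Cfg V I).Nonempty) (hZV : Z ⊆ V)
    (hZ : ∀ x ∈ Z, ∀ b ∈ I x, b ≤ a) (hI : ∀ x ∈ V, x ∉ Z → I x = univ)
    (hw : ∀ x ∈ ebd V, ∀ b ∈ I x, b ≤ a + 2) {f : Pt → ℝ} {S : Finset Pt} (hSV : ∀ x ∈ S, x ∈ V)
    (hf : ∀ x ∈ S, 0 ≤ f x) (hf1 : ∑ x ∈ S, f x = 1) (hT : ∀ x ∈ S, Conn T x w) :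
    (Ex (Cfg V I) (fun h => ∑ x ∈ S, f x * (h x : ℝ)) - a) / 2 * Pr (Cfg V I) (Miss V Z a T) ≤
      Pr (Cfg V I) (Arr V Z a w) := by
  have e : Ex (Cfg V I) (fun h => ∑ x ∈ S, f x * (h x : ℝ)) - a =
      ∑ x ∈ S, f x * (Ex (Cfg V I) (fun h => (h x : ℝ)) - a) := by
    rw [Ex_sum]
    simp only [Ex_const_mul, mul_sub]
    rw [Finset.sum_sub_distrib, ← Finset.sum_mul, hf1, one_mul]
  rw [e, Finset.sum_div, Finset.sum_mul]
  calc ∑ x ∈ S, f x * (Ex (Cfg V I) (fun h => (h x : ℝ)) - a) / 2 * Pr (Cfg V I) (Miss V Z a T)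
      ≤ ∑ x ∈ S, f x * Pr (Cfg V I) (Arr V Z a w) := by
        refine Finset.sum_le_sum fun x hx => ?_
        have h1 := mean_trick ha hd hne hZV hZ hI hw (hSV x hx)
        have h2 : Pr (Cfg V I) (Arr V Z a x) * Pr (Cfg V I) (Miss V Z a T) ≤
            Pr (Cfg V I) (Arr V Z a w) :=
          (Pr_mul_le_of_upper hd hne Arr.upper Miss.upper).trans
            (Pr_mono fun h _ hh => Arr.move (hT x hx) hh.1 hh.2)
        have h3 := Pr_nonneg (Cfg V I) (Miss V Z a T)
        have h4 : (Ex (Cfg V I) (fun h => (h x : ℝ)) - a) / 2 ≤ Pr (Cfg V I) (Arr V Z a x) := by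
          unfold Arr
          linarith
        have h5 := mul_le_mul_of_nonneg_right h4 h3
        have h6 := mul_le_mul_of_nonneg_left (h5.trans h2) (hf x hx)
        calc f x * (Ex (Cfg V I) (fun h => (h x : ℝ)) - a) / 2 * Pr (Cfg V I) (Miss V Z a T)
            = f x * ((Ex (Cfg V I) (fun h => (h x : ℝ)) - a) / 2 *
              Pr (Cfg V I) (Miss V Z a T)) := by ring
          _ ≤ _ := h6
    _ = Pr (Cfg V I) (Arr V Z a w) := by rw [← Finset.sum_mul, hf1, one_mul]

/-! ### The local bound -/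

theorem Pr_ge_pow (hd : Dat V I) (hne : (Cfg V I).Nonempty) {r : ℝ} (hr : 0 ≤ r) (P : Finset Pt)
    (h : ∀ x ∈ P, r ≤ Pr (Cfg V I) {h | c ≤ h x}) :
    r ^ P.card ≤ Pr (Cfg V I) {h | ∀ x ∈ P, c ≤ h x} := by
  classical
  induction P using Finset.induction_on with
  | empty =>
    have e : {h : Hg | ∀ x ∈ (∅ : Finset Pt), c ≤ h x} = univ := by
      ext h
      simp
    rw [e, Pr_univ (Cfg_finite hd) hne]
    simp
  | insert x P hx ih =>
    rw [Finset.card_insert_of_notMem hx, pow_succ]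
    have e : {h : Hg | ∀ y ∈ insert x P, c ≤ h y} = {h | ∀ y ∈ P, c ≤ h y} ∩ {h | c ≤ h x} := by
      ext h
      simp only [Finset.mem_insert, forall_eq_or_imp, mem_ofPred_eq, mem_inter_iff]
      tauto
    rw [e]
    refine le_trans ?_ (Pr_mul_le_of_upper hd hne (fun g h hgh hg y hy => (hg y hy).trans (hgh y))
      (fun g h hgh hg => le_trans hg (hgh x)))
    exact mul_le_mul (ih fun y hy => h y (Finset.mem_insert_of_mem hy))
      (h x (Finset.mem_insert_self x P)) hr (Pr_nonneg _ _)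

open Classical in
/-- Symmetric data. -/
noncomputable def sym (V : Set Pt) (I : Pt → Set ℤ) (c : ℤ) : Pt → Set ℤ := fun x =>
  if x ∈ V then (if I x = univ then univ else {c}) else if x ∈ ebd V then {c} else I x

theorem sym_dat (hd : Dat V I) : Dat V (sym V I c) := by
  classical
  refine ⟨hd.fin, fun x hx => ?_, hd.cof.subset fun x hx => ?_⟩
  · unfold sym
    rw [if_neg hx]
    split_ifs
    · exact Set.finite_singleton _
    · exact hd.bdd x hx
  · rw [mem_ofPred_eq] at hx ⊢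
    intro h1
    apply hx
    unfold sym
    split_ifs with h2 h3 h4
    · rw [← h3]; exact h1
    · exact Set.subsingleton_singleton
    · exact Set.subsingleton_singleton
    · exact h1

theorem sym_ne (hc : Odd c) (hne : (Cfg V I).Nonempty) : (Cfg V (sym V I c)).Nonempty := by
  classical
  obtain ⟨h₀, hh₀⟩ := hne
  refine ⟨fun x => if x ∈ V ∨ x ∈ ebd V then c else h₀ x, fun x => ?_, fun x => ?_,
    fun x hx y hxy => ?_⟩
  · dsimp only
    split_ifs
    · exact hc
    · exact hh₀.1 x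
  · unfold sym
    dsimp only
    by_cases h1 : x ∈ V
    · rw [if_pos (Or.inl h1), if_pos h1]
      split_ifs
      · exact mem_univ _
      · exact mem_singleton _
    · by_cases h2 : x ∈ ebd V
      · rw [if_pos (Or.inr h2), if_neg h1, if_pos h2]
        exact mem_singleton _
      · rw [if_neg (show ¬ (x ∈ V ∨ x ∈ ebd V) from by tauto), if_neg h1, if_neg h2]
        exact hh₀.2.1 x
  · dsimp only
    have hy : y ∈ V ∨ y ∈ ebd V := by
      by_cases h : y ∈ V
      · exact Or.inl h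
      · exact Or.inr ⟨h, x, hx, hxy⟩
    rw [if_pos (Or.inl hx), if_pos hy, sub_self, abs_zero]
    norm_num

theorem sym_bij : BijOn (refl c V) (Cfg V (sym V I c)) (Cfg V (sym V I c)) := by
  classical
  have hJV : ∀ g ∈ Cfg V (sym V I c), ∀ x ∈ V, ∀ y, y ∉ V → Adj x y → g y = c := by
    intro g hg x hx y hy hxy
    have h1 := hg.2.1 y
    unfold sym at h1
    rw [if_neg hy, if_pos ⟨hy, x, hx, hxy⟩] at h1
    exact h1
  have hR : ∀ g ∈ Cfg V (sym V I c), refl c V g ∈ Cfg V (sym V I c) := by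
    intro g hg
    refine ⟨fun x => ?_, fun x => ?_, fun x hx y hxy => ?_⟩
    · unfold refl
      split_ifs
      · have := hg.1 x
        rw [Int.odd_iff] at this ⊢
        omega
      · exact hg.1 x
    · have h1 := hg.2.1 x
      unfold sym at h1 ⊢
      unfold refl
      by_cases hx : x ∈ V
      · rw [if_pos hx] at h1 ⊢
        rw [if_pos hx]
        split_ifs with h2
        · exact mem_univ _
        · rw [if_neg h2, mem_singleton_iff] at h1
          rw [h1, mem_singleton_iff]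
          ring
      · rw [if_neg hx] at h1 ⊢
        rw [if_neg hx]
        exact h1
    · have h1 := hg.2.2 x hx y hxy
      unfold refl
      rw [if_pos hx]
      split_ifs with hy
      · have e : 2 * c - g x - (2 * c - g y) = -(g x - g y) := by ring
        rw [e, abs_neg]
        exact h1
      · have h2 := hJV g hg x hx y hy hxy
        rw [h2] at h1 ⊢
        have e : 2 * c - g x - c = -(g x - c) := by ring
        rw [e, abs_neg]
        exact h1
  have hRR : ∀ g : Hg, refl c V (refl c V g) = g := by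
    intro g
    funext x
    unfold refl
    split_ifs
    · ring
    · rfl
  exact ⟨hR, fun g _ h _ hgh => by rw [← hRR g, hgh, hRR], fun g hg => ⟨refl c V g, hR g hg, hRR g⟩⟩

/-- Comparison with the symmetric data from below. -/
theorem sym_le (hc : Odd c) (hd : Dat V I) (hne : (Cfg V I).Nonempty)
    (hin : ∀ x ∈ V, I x = univ ∨ ∀ b ∈ I x, c ≤ b) (hout : ∀ x ∈ ebd V, ∀ b ∈ I x, c ≤ b)
    (F : Hg → ℝ) (hF : Monotone F) : Ex (Cfg V (sym V I c)) F ≤ Ex (Cfg V I) F := by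
  classical
  refine Cfg_le (sym_dat hd) hd (sym_ne hc hne) hne (fun x => ?_) _ hF
  have key : (∀ b ∈ I x, c ≤ b) → SLe {c} (I x) := by
    intro h b hb d hd
    rw [mem_singleton_iff] at hb
    subst hb
    rw [min_eq_left (h d hd), max_eq_right (h d hd)]
    exact ⟨rfl, hd⟩
  unfold sym
  split_ifs with h1 h2 h3
  · rw [h2]; exact SLe.refl _
  · exact key ((hin x h1).resolve_left h2)
  · exact key (hout x h3)
  · exact SLe.refl _

theorem ind_mono {C : Set Hg} (hC : IsUpperSet C) : Monotone (ind C) := by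
  classical
  intro g h hgh
  unfold ind
  split_ifs with h1 h2
  · exact le_rfl
  · exact absurd (hC hgh h1) h2
  · norm_num
  · exact le_rfl

/-- If the data are at least `c` then `P(h ≥ c) ≥ 1 / 2`. -/
theorem half_le (hc : Odd c) (hd : Dat V I) (hne : (Cfg V I).Nonempty)
    (hin : ∀ x ∈ V, I x = univ ∨ ∀ b ∈ I x, c ≤ b) (hout : ∀ x ∈ ebd V, ∀ b ∈ I x, c ≤ b)
    (hv : v ∈ V) : 1 / 2 ≤ Pr (Cfg V I) {h | c ≤ h v} := by
  classical
  have hf := Cfg_finite hd
  have hf' := Cfg_finite (sym_dat (c := c) hd)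
  have hne' := sym_ne hc hne
  have h1 : Pr (Cfg V (sym V I c)) {h | c ≤ h v} ≤ Pr (Cfg V I) {h | c ≤ h v} := by
    rw [Pr_eq_Ex hf, Pr_eq_Ex hf']
    exact sym_le hc hd hne hin hout _ (ind_mono fun g h hgh hg => le_trans hg (hgh v))
  have h2 : Pr (Cfg V (sym V I c)) {h | c ≤ h v} = Pr (Cfg V (sym V I c)) {h | h v ≤ c} := by
    rw [Pr_eq_Ex hf', Pr_eq_Ex hf', Ex_bij (refl c V) sym_bij]
    refine Ex_congr fun g _ => ?_
    have e : refl c V g v = 2 * c - g v := by
      unfold refl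
      rw [if_pos hv]
    unfold ind
    simp only [mem_ofPred_eq, e]
    by_cases h : g v ≤ c
    · rw [if_pos h, if_pos (by omega)]
    · rw [if_neg h, if_neg (by omega)]
  have h3 := Pr_add_compl hf' hne' {h | c ≤ h v}
  have h4 : Pr (Cfg V (sym V I c)) {h | c ≤ h v}ᶜ ≤ Pr (Cfg V (sym V I c)) {h | h v ≤ c} := by
    refine Pr_mono fun h _ hh => ?_
    rw [mem_compl_iff, mem_ofPred_eq] at hh
    rw [mem_ofPred_eq]
    omega
  linarith

/-- The neighbours of a vertex. -/
def nbr (x : Pt) : Finset Pt := {(x.1 + 1, x.2), (x.1 - 1, x.2), (x.1, x.2 + 1), (x.1, x.2 - 1),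
  (x.1 + 1, x.2 - 1), (x.1 - 1, x.2 + 1)}

theorem mem_nbr {x y : Pt} : y ∈ nbr x ↔ Adj x y := by
  rw [adj_iff]
  obtain ⟨a, b⟩ := x
  obtain ⟨c, d⟩ := y
  simp only [nbr, Finset.mem_insert, Finset.mem_singleton, Prod.mk.injEq]

theorem card_nbr_le (x : Pt) : (nbr x).card ≤ 6 := Finset.card_le_six

theorem single (hd : Dat V I) {x : Pt} (hx : x ∈ V) (hIx : I x = univ) :
    1 / 3 * Pr (Cfg V I) {h | ∀ y ∈ nbr x, a ≤ h y} ≤ Pr (Cfg V I) {h | a + 2 ≤ h x} := by
  classical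
  have hf := Cfg_finite hd
  refine (Pr_ge_of_fiber hf (fun h : Hg => fun y => if y = x then 0 else h y)
    {h | a + 2 ≤ h x} {h | ∀ y ∈ nbr x, a ≤ h y} ?_ ?_).trans (Pr_mono fun h _ hh => hh.2)
  · intro h _ g _ hhg
    have key : ∀ y ∈ nbr x, h y = g y := by
      intro y hy
      have h1 := congrFun hhg y
      have h2 : y ≠ x := by
        rintro rfl
        rw [mem_nbr, adj_iff] at hy
        omega
      rwa [if_neg h2, if_neg h2] at h1
    constructor
    · intro h1 y hy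
      rw [← key y hy]
      exact h1 y hy
    · intro h1 y hy
      rw [key y hy]
      exact h1 y hy
  · intro h hh hB
    set S := Cfg V I ∩ {b : Hg | (fun y => if y = x then 0 else b y) =
      fun y => if y = x then 0 else h y} with hS
    have hSf : S.Finite := hf.inter_of_left _
    have hSg : ∀ g ∈ S, ∀ y, y ≠ x → g y = h y := by
      intro g hg y hy
      have h1 := congrFun hg.2 y
      rwa [if_neg hy, if_neg hy] at h1
    obtain ⟨y₀, hy₀, hmin⟩ := Finset.exists_min_image (nbr x) h ⟨_, mem_nbr.2 (adj_right x)⟩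
    have hne : ∀ y ∈ nbr x, y ≠ x := by
      rintro y hy rfl
      rw [mem_nbr, adj_iff] at hy
      omega
    have hlo : a ≤ h y₀ := hB y₀ hy₀
    have h0 := hh.2.2 x hx y₀ (mem_nbr.1 hy₀)
    rw [abs_le] at h0
    -- the configuration with the largest height at `x`
    have hg' : Function.update h x (h y₀ + 2) ∈ S := by
      refine ⟨⟨fun z => ?_, fun z => ?_, fun z hz y hzy => ?_⟩, ?_⟩
      · by_cases hzx : z = x
        · subst hzx
          rw [Function.update_self]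
          exact (hh.1 y₀).add_even even_two
        · rw [Function.update_of_ne hzx]
          exact hh.1 z
      · by_cases hzx : z = x
        · subst hzx
          rw [hIx]
          exact mem_univ _
        · rw [Function.update_of_ne hzx]
          exact hh.2.1 z
      · have key : ∀ y ∈ nbr x, |h y₀ + 2 - h y| ≤ 2 := by
          intro y hy
          have h1 := hh.2.2 x hx y (mem_nbr.1 hy)
          have h2 := hmin y hy
          rw [abs_le] at h1 ⊢
          constructor <;> omega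
        by_cases hzx : z = x
        · subst hzx
          rw [Function.update_self, Function.update_of_ne (hne y (mem_nbr.2 hzy))]
          exact key y (mem_nbr.2 hzy)
        · rw [Function.update_of_ne hzx]
          by_cases hyx : y = x
          · subst hyx
            rw [Function.update_self, abs_sub_comm]
            exact key z (mem_nbr.2 (adj_symm hzy))
          · rw [Function.update_of_ne hyx]
            exact hh.2.2 z hz y hzy
      · rw [mem_ofPred_eq]
        funext y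
        by_cases hyx : y = x
        · rw [if_pos hyx, if_pos hyx]
        · rw [if_neg hyx, if_neg hyx, Function.update_of_ne hyx]
    have h1 : 1 ≤ (S ∩ {h | a + 2 ≤ h x}).ncard := by
      rw [Nat.one_le_iff_ne_zero, ← Nat.pos_iff_ne_zero, Set.ncard_pos (hSf.inter_of_left _)]
      refine ⟨_, hg', ?_⟩
      rw [mem_ofPred_eq, Function.update_self]
      omega
    have h2 : S.ncard ≤ 3 := by
      have h3 : S.ncard ≤ (({h y₀ - 2, h y₀, h y₀ + 2} : Finset ℤ) : Set ℤ).ncard := by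
        refine Set.ncard_le_ncard_of_injOn (fun g : Hg => g x) ?_ ?_ (Finset.finite_toSet _)
        · intro g hg
          have h4 := hg.1.2.2 x hx y₀ (mem_nbr.1 hy₀)
          rw [hSg g hg y₀ (hne y₀ hy₀), abs_le] at h4
          have h5 := hg.1.1 x
          have h6 := hh.1 y₀
          rw [Int.odd_iff] at h5 h6
          simp only [Finset.coe_insert, Finset.coe_singleton, mem_insert_iff, mem_singleton_iff]
          omega
        · intro g hg g' hg' hgg
          funext y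
          by_cases hyx : y = x
          · rw [hyx]
            exact hgg
          · rw [hSg g hg y hyx, hSg g' hg' y hyx]
      rw [Set.ncard_coe_finset] at h3
      exact h3.trans Finset.card_le_three
    unfold Pr
    have h3 : 0 < S.ncard := (Set.ncard_pos hSf).2 ⟨_, hg'⟩
    rw [le_div_iff₀ (by exact_mod_cast h3)]
    have h1' : (1 : ℝ) ≤ (S ∩ {h | a + 2 ≤ h x}).ncard := by exact_mod_cast h1
    have h2' : (S.ncard : ℝ) ≤ 3 := by exact_mod_cast h2
    linarith

/-- **The local bound.** -/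
theorem local_one (ha : Odd a) (hd : Dat V I) (hne : (Cfg V I).Nonempty)
    (hin : ∀ x ∈ V, I x = univ ∨ ∀ b ∈ I x, a ≤ b) (hout : ∀ x ∈ ebd V, ∀ b ∈ I x, a ≤ b)
    {x : Pt} (hx : x ∈ V) (hIx : I x = univ) : 1 / 192 ≤ Pr (Cfg V I) {h | a + 2 ≤ h x} := by
  have h1 := single (a := a) hd hx hIx
  have h2 : (1 / 2 : ℝ) ^ (nbr x).card ≤ Pr (Cfg V I) {h | ∀ y ∈ nbr x, a ≤ h y} := by
    refine Pr_ge_pow hd hne (by norm_num) _ fun y hy => ?_
    by_cases hyV : y ∈ V
    · exact half_le ha hd hne hin hout hyV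
    · have e : Pr (Cfg V I) {h | a ≤ h y} = 1 := by
        rw [← Pr_univ (Cfg_finite hd) hne]
        refine Pr_congr fun h hh => ⟨fun _ => mem_univ _, fun _ => ?_⟩
        exact hout y ⟨hyV, x, hx, mem_nbr.1 hy⟩ _ (hh.2.1 y)
      rw [e]
      norm_num
  have h3 : (1 / 2 : ℝ) ^ 6 ≤ (1 / 2 : ℝ) ^ (nbr x).card :=
    pow_le_pow_of_le_one (by norm_num) (by norm_num) (card_nbr_le x)
  have h4 : (1 / 2 : ℝ) ^ 6 = 1 / 64 := by norm_num
  linarith

theorem local_bound (ha : Odd a) (hd : Dat V I) (hne : (Cfg V I).Nonempty)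
    (hin : ∀ x ∈ V, I x = univ ∨ ∀ b ∈ I x, a ≤ b) (hout : ∀ x ∈ ebd V, ∀ b ∈ I x, a ≤ b)
    (P : Finset Pt) (hP : ∀ x ∈ P, x ∈ V ∧ I x = univ) :
    (1 / 192 : ℝ) ^ P.card ≤ Pr (Cfg V I) {h | ∀ x ∈ P, a + 2 ≤ h x} :=
  Pr_ge_pow hd hne (by norm_num) P fun x hx => local_one ha hd hne hin hout (hP x hx).1 (hP x hx).2

/-- Arrival near the walls. -/
theorem near (ha : Odd a) (hd : Dat V I) (hne : (Cfg V I).Nonempty)
    (hin : ∀ x ∈ V, I x = univ ∨ ∀ b ∈ I x, a ≤ b) (hout : ∀ x ∈ ebd V, ∀ b ∈ I x, a ≤ b)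
    (P : Finset Pt) (hP : ∀ x ∈ P, x ∈ V ∧ I x = univ) {u y : Pt} (hwu : Conn (P : Set Pt) w u)
    (hy : y ∉ V) (huy : Adj u y) : (1 / 192 : ℝ) ^ P.card ≤ Pr (Cfg V I) (Arr V Z a w) := by
  refine (local_bound ha hd hne hin hout P hP).trans (Pr_mono fun h _ hh => ?_)
  have key : (P : Set Pt) ⊆ (Kd V Z a h)ᶜ := by
    intro x hx hxK
    have h1 : h x ≤ a := (Cl_subset hxK).2
    have h2 : a + 2 ≤ h x := hh x hx
    omega
  exact ⟨y, hy, (hwu.mono key).tail huy fun h1 => hy (Kd_subset h1)⟩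

/-- The hypothesis of the landing theorem at one vertex of the crosscut: either near the walls, or
a smeared lower bound for the mean together with a lower bound for the probability that the cluster
misses a neighbourhood. -/
def Good (V Z : Set Pt) (I : Pt → Set ℤ) (a : ℤ) (n : ℕ) (η θ : ℝ) (w : Pt) : Prop :=
  (∃ P : Finset Pt, P.card ≤ n ∧ (∀ x ∈ P, x ∈ V ∧ I x = univ) ∧
    ∃ u y, Conn (P : Set Pt) w u ∧ y ∉ V ∧ Adj u y) ∨
  ∃ (S : Finset Pt) (f : Pt → ℝ) (T : Set Pt), (∀ x ∈ S, x ∈ V) ∧ (∀ x ∈ S, 0 ≤ f x) ∧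
    ∑ x ∈ S, f x = 1 ∧ (∀ x ∈ S, Conn T x w) ∧
    η ≤ (Ex (Cfg V I) (fun h => ∑ x ∈ S, f x * (h x : ℝ)) - a) / 2 ∧
    θ ≤ Pr (Cfg V I) (Miss V Z a T)

theorem Good.arr (ha : Odd a) (hd : Dat V I) (hne : (Cfg V I).Nonempty) (hZV : Z ⊆ V)
    (hZ : ∀ x ∈ Z, ∀ b ∈ I x, b = a) (hI : ∀ x ∈ V, x ∉ Z → I x = univ)
    (hw : ∀ x ∈ ebd V, ∀ b ∈ I x, a ≤ b ∧ b ≤ a + 2) {n : ℕ} {η θ : ℝ} (hη : 0 ≤ η) (hθ : 0 ≤ θ)
    (hg : Good V Z I a n η θ w) :
    min ((1 / 192) ^ n) (η * θ) ≤ Pr (Cfg V I) (Arr V Z a w) := by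
  rcases hg with ⟨P, hPn, hP, u, y, hwu, hy, huy⟩ | ⟨S, f, T, hS, hf, hf1, hT, h1, h2⟩
  · refine (min_le_left _ _).trans (le_trans ?_ (near ha hd hne (fun x hx => ?_)
      (fun x hx b hb => (hw x hx b hb).1) P hP hwu hy huy))
    · exact pow_le_pow_of_le_one (by norm_num) (by norm_num) hPn
    · by_cases hxZ : x ∈ Z
      · exact Or.inr fun b hb => (hZ x hxZ b hb).ge
      · exact Or.inl (hI x hx hxZ)
  · refine (min_le_right _ _).trans (le_trans ?_ (star ha hd hne hZV
      (fun x hx b hb => (hZ x hx b hb).le) hI (fun x hx b hb => (hw x hx b hb).2) hS hf hf1 hT))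
    exact mul_le_mul h1 h2 hθ (hη.trans h1)

/-- **S2, with the hypotheses of S1 only at the vertices away from the walls.** -/
theorem land_good {s t : Tri} (ha : Odd a) (hd : Dat V I) (hne : (Cfg V I).Nonempty) (hV : CC V)
    (hZV : Z ⊆ V) (hZ : ∀ x ∈ Z, ∀ b ∈ I x, b = a) (hI : ∀ x ∈ V, x ∉ Z → I x = univ)
    (hw : ∀ x ∈ ebd V, ∀ b ∈ I x, a ≤ b ∧ b ≤ a + 2) {p q : Pt} (hp : p ∈ cor s) (hq : q ∈ cor t)
    (hpZ : p ∈ Z) (C : Cut Vᶜ s t) {H : Set Pt} {w : ℕ → Pt} {m : ℕ} (hx : Xcut C H w m) {n : ℕ}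
    {η θ α : ℝ} (hη : 0 ≤ η) (hθ : 0 ≤ θ) (hα : 0 ≤ α) (hα1 : 2 * α ≤ (1 / 192) ^ n)
    (hα2 : 2 * α ≤ η * θ) (hst : ∀ k, 0 < k → k < m → Good V Z I a n η θ (w k)) :
    α ^ 2 ≤ Pr (Cfg V I) {h | ¬ Conn (V ∩ dn h a) p q} := by
  refine land hd hne hV hp hq hpZ C hx hα (hα1.trans (pow_le_one₀ (by norm_num) (by norm_num)))
    fun k hk hkm => ?_
  exact (le_min hα1 hα2).trans ((hst k hk hkm).arr ha hd hne hZV hZ hI hw hη hθ)

end Vale.Agent.P153.R2.PLAN
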