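import Vale.Agent.P153.R2.PLAN.Ring
import Vale.Agent.P153.R2.Base.Basic

/-!
P153-R2, block PLAN/LAND: the switch argument. On a crosscut of parity one, if every vertex is
joined to the outside off the cluster `K` with probability at least `2 α`, then with probability
at least `α ^ 2` the cluster does not join the two sides of the crosscut.
-/

namespace Vale.Agent.P153.R2.PLAN

open Set Relation
open Vale.Agent.P153 Vale.Agent.P153.Topo

/-- The cluster of `Z` in `V ∩ {h ≤ a}`. -/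
def Kd (V Z : Set Pt) (a : ℤ) (h : Hg) : Set Pt := Cl (V ∩ dn h a) Z

/-- The cluster of `Z` in `V ∩ {h ≥ a}`. -/
def Ku (V Z : Set Pt) (a : ℤ) (h : Hg) : Set Pt := Cl (V ∩ up h a) Z

variable {V Z : Set Pt} {a : ℤ}

theorem Cl_mono {S T A B : Set Pt} (h : S ⊆ T) (h' : A ⊆ B) : Cl S A ⊆ Cl T B := by
  rintro y ⟨x, hx, hxy⟩
  exact ⟨x, h' hx, hxy.mono h⟩

theorem Cl_subset {S A : Set Pt} : Cl S A ⊆ S := by
  rintro y ⟨x, _, hxy⟩
  exact hxy.right_mem

theorem Kd_anti {h g : Hg} (hg : h ≤ g) : Kd V Z a g ⊆ Kd V Z a h :=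
  Cl_mono (fun x hx => ⟨hx.1, (hg x).trans hx.2⟩) subset_rfl

theorem Kd_subset {h : Hg} : Kd V Z a h ⊆ V := fun _ hx => (Cl_subset hx).1

/-- A path inside the cluster. -/
theorem conn_Cl {S A : Set Pt} {x y : Pt} (hx : x ∈ A) (h : Conn S x y) : Conn (Cl S A) x y := by
  refine Conn.ind (S := S) (fun y => Conn (Cl S A) x y) (Conn.refl ⟨x, hx, Conn.refl h.left_mem⟩)
    (fun u v hu huv hv ih => ih.tail huv ⟨x, hx, hu.tail huv hv⟩) h

theorem Pr_mul_le_of_upper {I : Pt → Set ℤ} (hd : Dat V I) (hne : (Cfg V I).Nonempty)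
    {A B : Set Hg} (hA : IsUpperSet A) (hB : IsUpperSet B) :
    Pr (Cfg V I) A * Pr (Cfg V I) B ≤ Pr (Cfg V I) (A ∩ B) := by
  classical
  have hf := Cfg_finite hd
  rw [Pr_eq_Ex hf, Pr_eq_Ex hf, Pr_eq_Ex hf]
  have mono : ∀ {C : Set Hg}, IsUpperSet C → Monotone (ind C) := by
    intro C hC g h hgh
    unfold ind
    split_ifs with h1 h2
    · exact le_rfl
    · exact absurd (hC hgh h1) h2
    · norm_num
    · exact le_rfl
  refine (Cfg_fkg hd hne _ _ (mono hA) (mono hB)).trans_eq (Ex_congr fun h _ => ?_)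
  unfold ind
  by_cases h1 : h ∈ A <;> by_cases h2 : h ∈ B <;> simp [h1, h2]

/-- The discrete intermediate value argument. -/
theorem switch {P Q : ℕ → ℝ} {m : ℕ} {α : ℝ} (h : ∀ k ≤ m, 2 * α ≤ P k + Q k)
    (h0 : α ≤ P 0) (hm : α ≤ Q m) :
    (∃ k ≤ m, α ≤ P k ∧ α ≤ Q k) ∨ ∃ k < m, α ≤ P k ∧ α ≤ Q (k + 1) := by
  classical
  by_contra hcon
  push Not at hcon
  obtain ⟨hc1, hc2⟩ := hcon
  have key : ∀ k ≤ m, α ≤ P k := by
    intro k
    induction k with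
    | zero => exact fun _ => h0
    | succ k ih =>
      intro hk
      have h1 := hc2 k (by omega) (ih (by omega))
      have h2 := h (k + 1) hk
      linarith
  exact absurd hm (not_le.2 (hc1 m le_rfl (key m le_rfl)))

variable {s t : Tri}

/-- **S2.** -/
theorem land {I : Pt → Set ℤ} (hd : Dat V I) (hne : (Cfg V I).Nonempty) (hV : CC V)
    {p q : Pt} (hp : p ∈ cor s) (hq : q ∈ cor t) (hpZ : p ∈ Z) (C : Cut Vᶜ s t) {H : Set Pt}
    {w : ℕ → Pt} {m : ℕ} (hx : Xcut C H w m) {α : ℝ} (hα : 0 ≤ α) (hα1 : 2 * α ≤ 1)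
    (hst : ∀ k, 0 < k → k < m →
      2 * α ≤ Pr (Cfg V I) {h | ∃ y, y ∉ V ∧ Conn (Kd V Z a h)ᶜ (w k) y}) :
    α ^ 2 ≤ Pr (Cfg V I) {h | ¬ Conn (V ∩ dn h a) p q} := by
  classical
  have hf := Cfg_finite hd
  set L : ℕ → Set Hg := fun k => {h | Lft C.c Vᶜ w m (Kd V Z a h) k} with hL
  set R : ℕ → Set Hg := fun k => {h | Rgt C.c Vᶜ w (Kd V Z a h) k} with hR
  have hLu : ∀ k, IsUpperSet (L k) := fun k g h hgh hg => Lft.mono hg (Kd_anti hgh)
  have hRu : ∀ k, IsUpperSet (R k) := fun k g h hgh hg => Rgt.mono hg (Kd_anti hgh)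
  have hdis : ∀ h, Disjoint (Kd V Z a h) Vᶜ := fun h =>
    Set.disjoint_left.2 fun x hx hx' => hx' (Kd_subset hx)
  have hO : ∀ x ∈ Vᶜ, ∀ y ∈ Vᶜ, Conn Vᶜ x y := fun x hx y hy => hV x y hx hy
  have hbad : ∀ h : Hg, Conn (V ∩ dn h a) p q → Conn (Kd V Z a h) p q := fun h hh =>
    conn_Cl hpZ hh
  have h0 : L 0 = univ := by
    ext h
    simp only [hL, mem_ofPred_eq, mem_univ, iff_true]
    exact lft_zero hx.st hx.par fun hk => hx.st (Kd_subset hk)
  have hm : R m = univ := by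
    ext h
    simp only [hR, mem_ofPred_eq, mem_univ, iff_true]
    exact rgt_end hx.en hx.par fun hk => hx.en (Kd_subset hk)
  have hsum : ∀ k ≤ m, 2 * α ≤ Pr (Cfg V I) (L k) + Pr (Cfg V I) (R k) := by
    intro k hk
    rcases Nat.eq_zero_or_pos k with rfl | hk0
    · rw [h0, Pr_univ hf hne]
      have := Pr_nonneg (Cfg V I) (R 0)
      linarith
    rcases Nat.eq_or_lt_of_le hk with rfl | hkm
    · rw [hm, Pr_univ hf hne]
      have := Pr_nonneg (Cfg V I) (L k)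
      linarith
    refine (hst k hk0 hkm).trans ((Pr_mono fun h _ hh => ?_).trans (Pr_union_le _ _ _))
    obtain ⟨y, hy, hc⟩ := hh
    exact lft_or_rgt hx.par hy hc
  rcases switch hsum (by rw [h0, Pr_univ hf hne]; linarith)
    (by rw [hm, Pr_univ hf hne]; linarith) with ⟨k, _, h1, h2⟩ | ⟨k, hk, h1, h2⟩
  · calc α ^ 2 = α * α := sq α
      _ ≤ Pr (Cfg V I) (L k) * Pr (Cfg V I) (R k) :=
        mul_le_mul h1 h2 hα (Pr_nonneg _ _)
      _ ≤ Pr (Cfg V I) (L k ∩ R k) := Pr_mul_le_of_upper hd hne (hLu k) (hRu k)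
      _ ≤ _ := Pr_mono fun h _ hh hc =>
        C.glue hO (hdis h) hx.par hh.1 hh.2 hp hq (hbad h hc)
  · calc α ^ 2 = α * α := sq α
      _ ≤ Pr (Cfg V I) (L k) * Pr (Cfg V I) (R (k + 1)) :=
        mul_le_mul h1 h2 hα (Pr_nonneg _ _)
      _ ≤ Pr (Cfg V I) (L k ∩ R (k + 1)) := Pr_mul_le_of_upper hd hne (hLu k) (hRu (k + 1))
      _ ≤ _ := Pr_mono fun h _ hh hc =>
        C.glue' hO (hdis h) hx.par (hx.step k hk) hh.1 hh.2 hp hq (hbad h hc)

end Vale.Agent.P153.R2.PLAN
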